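import Vale.Agent.P216MP.RigC
import Vale.Agent.P216K.Defs

/-! # Rigidity of Ricci flows with nonnegative sectional curvature -/

open Set Filter Topology Metric
open scoped ContDiff Manifold

set_option maxSynthPendingDepth 3
set_option linter.unusedSectionVars false

noncomputable section

namespace Vale.Agent.P216MP

open P216R P216BF P216D P216D.Loc P219.RG
open P216DC (Spl Anc)
open P216K (LSp)
open P216ST (Sm0)
open P210.R2.H53 (gradG gamG hessG lapG)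

lemma const_of_deriv {F : Type*} [NormedAddCommGroup F] [NormedSpace ℝ F] {φ : ℝ → F} {I : Set ℝ}
    (hI : Convex ℝ I) (h : ∀ s ∈ I, HasDerivWithinAt φ 0 I s) {s t : ℝ} (hs : s ∈ I) (ht : t ∈ I) :
    φ s = φ t := by
  simpa [sub_eq_zero] using hI.norm_image_sub_le_of_norm_hasDerivWithin_le (C := 0) h
    (fun _ _ => by simp) ht hs

lemma ode_zero {ψ S : ℝ → ℝ} {s t : ℝ} (h : s ≤ t) (h0 : ∀ r ∈ Icc s t, 0 < S r ∧ 0 ≤ ψ r)
    (H : ∀ r ∈ Icc s t, ∃ ψ' S', HasDerivWithinAt ψ ψ' (Icc s t) r ∧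
      HasDerivWithinAt S S' (Icc s t) r ∧ S r * ψ' = (S' + 2 * S r ^ 2) * ψ r) (h1 : ψ t = 0) :
    ψ s = 0 := by
  have h2 : ∀ r ∈ Icc s t, HasDerivWithinAt (fun r => ψ r / S r) (2 * ψ r) (Icc s t) r :=
    fun r hr => by
      obtain ⟨ψ', S', a1, a2, a3⟩ := H r hr
      refine (a1.div a2 (h0 r hr).1.ne').congr_deriv ?_
      rw [div_eq_iff (pow_ne_zero _ (h0 r hr).1.ne')]
      linear_combination a3
  have h3 := monotoneOn_of_hasDerivWithinAt_nonneg (convex_Icc s t)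
    (fun r hr => (h2 r hr).continuousWithinAt)
    (fun r hr => (h2 r (interior_subset hr)).mono interior_subset)
    (fun r hr => mul_nonneg zero_le_two (h0 r (interior_subset hr)).2)
    (left_mem_Icc.2 h) (right_mem_Icc.2 h) h
  obtain ⟨a1, a2⟩ := h0 s (left_mem_Icc.2 h)
  simp only [h1, zero_div] at h3
  exact le_antisymm (by simpa using (div_le_iff₀ a1).1 h3) a2

variable {M : Type} [TopologicalSpace M] [ChartedSpace E3 M] [IsManifold 𝓘(ℝ, E3) ∞ M]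
  {U : Set M} {x y : M} {b : M → ℝ}

section Static

variable {g : Ten E3 M} {z : E3}

lemma sm0_of (h : ContMDiffOn 𝓘(ℝ, E3) 𝓘(ℝ, ℝ) ∞ b U) : Sm0 E3 b U := fun a =>
  (h.comp ((ld_symm a).smooth.mono inter_subset_left) fun _ hz => hz.2).contDiffOn

lemma sm0_sa (hU : IsOpen U) (h : Sm0 E3 b U) (hx : x ∈ U) : SA E3 b x :=
  (h x).contDiffAt ((isOpen_dom x hU).mem_nhds (pt_mem_dom hx))

lemma co_hess (hg : Met g U) (hb : Sm0 E3 b U) (hz : z ∈ dom E3 y U) :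
    hessG (co g y) (rd E3 b y) z = co (hess g b) y z := by
  rw [← hess_model]
  exact (li_comap hg (ld_symm y) hz.1 hz.2).hess ((sm0_sa hg.isOpen hb hz.2).of_le (by norm_cast))

lemma co_gam (hg : Met g U) (hb : Sm0 E3 b U) (hz : z ∈ dom E3 y U) :
    gamG (co g y) (rd E3 b y) (rd E3 b y) z = gam g b b ((chartAt E3 y).symm z) := by
  have := ((hb y).contDiffAt ((isOpen_dom y hg.isOpen).mem_nhds hz)).differentiableAt (by simp)
  exact (rd_gam hg hz this this).symm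

lemma co_psi (hg : Met g U) (hb : Sm0 E3 b U) (hz : z ∈ dom E3 y U) :
    psi (co g y) (rd E3 b y) z = psi (co g ((chartAt E3 y).symm z))
      (rd E3 b ((chartAt E3 y).symm z)) (pt E3 ((chartAt E3 y).symm z)) := by
  have H := li_comap hg (ld_symm y) hz.1 hz.2
  have h1 := H.grad ((sm0_sa hg.isOpen hb hz.2).differentiableAt (by simp))
  have h2 := congrArg (fun B : Bil E3 => B (grad (co g y) (rd E3 b y) z)
    (grad (co g y) (rd E3 b y) z)) H.Ric
  simp only [comap_apply] at h2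
  rw [psi, ← Ric_model, ← grad_model]
  refine h2.trans ?_
  erw [h1]
  rfl

lemma ric_nonneg (hg : Met g U) (hx : x ∈ U) (hs : SecGe g x 0) (v : E3) : 0 ≤ Ric g x v v := by
  simpa using ricGe3 finrank_E3 hg hx hs v

lemma sc_nonneg (hg : Met g U) (hx : x ∈ U) (hs : SecGe g x 0) : 0 ≤ Sc g x := by
  simpa using sc_ge3 finrank_E3 hg hx hs

lemma ric_zero (hg : Met g U) (hx : x ∈ U) (hs : SecGe g x 0) (h : Sc g x = 0) : Ric g x = 0 := by
  ext1 v
  refine null_of_isotropic (ric_symm hg hx) (ric_nonneg hg hx hs) (le_antisymm ?_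
    (ric_nonneg hg hx hs v))
  simpa [h] using ricLe_sc3 finrank_E3 hg hx (κ := 0) (by simpa using hs) v

/-- the gradient of a function with Hessian `r g` is in the kernel of the Ricci tensor -/
lemma ric_grad (hg : Met g U) (hb : Sm0 E3 b U) {r : ℝ} (h : ∀ y ∈ U, hess g b y = r • g y)
    (hx : x ∈ U) : Ric g x (grad g b x) (grad g b x) = 0 :=
  st_psi (hg.isMetricOn x) (hb x) (r := r) (fun z hz => by
    rw [co_hess hg hb hz, co, P216R.comap, h _ hz.2]; ext v w; simp [co, P216R.comap]) (pt_mem_dom hx)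

lemma gam_eq_grad (hg : Met g U) (hx : x ∈ U) : gam g b b x = g x (grad g b x) (grad g b x) := by
  rw [gam, gamG, grad, gradG, co_pt, app_inverse (hg.pos x hx)]

end Static

variable {g : ℝ → Ten E3 M} {a t0 : ℝ} (hg : RF g (Ioc a t0) U) (hU : IsPreconnected U)
  (hs : ∀ t ∈ Ioc a t0, ∀ x ∈ U, SecGe (g t) x 0)

include hg hU hs

theorem s1_flat (hx : x ∈ U) (h : Sc (g t0) x = 0) : ∀ t ∈ Ioc a t0, ∀ y ∈ U, Sc (g t) y = 0 :=
  smp0 (u := fun t => Sc (g t)) hg.toFam hU hg.toFam.continuousOn_Sc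
    (fun t ht y hy => sc_nonneg (hg.met ht) hy (hs t ht y hy))
    (fun t ht y hy => (vs_sc hg ht (Ioc_mem ht) hy).mono (by positivity)) hx h

theorem s1_const (hx : x ∈ U) (h : Sc (g t0) x = 0) :
    ∀ t ∈ Ioc a t0, ∀ y ∈ U, g t y = g t0 y := fun t ht y hy =>
  const_of_deriv (φ := fun s => g s y) (convex_Ioc a t0) (fun s h1 => by
    simpa [ric_zero (hg.met h1) hy (hs s h1 y hy) (s1_flat hg hU hs hx h s h1 y hy)] using
      hg.eqn s h1 y hy) ht ⟨ht.1.trans_le ht.2, le_rfl⟩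

theorem s1_rho (hx : x ∈ U) {v : E3} (hv : v ≠ 0) (h : Ric (g t0) x v v = 0) :
    ∀ t ∈ Ioc a t0, ∀ y ∈ U, rho (g t) y = 0 := by
  intro t ht
  have h0 : t0 ∈ Ioc a t0 := ⟨ht.1.trans_le ht.2, le_rfl⟩
  have h1 : ∀ t ∈ Ioc a t0, ∀ y ∈ U, 0 ≤ rho (g t) y := fun t ht y hy =>
    (ricGe_iff (hg.met ht) hy).1 fun v => by simpa using ric_nonneg (hg.met ht) hy (hs t ht y hy) v
  refine smp (u := fun t => rho (g t)) (c := fun t y => Sc (g t) y - rho (g t) y) hg.toFam hU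
    (continuousOn_rho hg.toFam) (hg.toFam.continuousOn_Sc.sub (continuousOn_rho hg.toFam)) h1
    (fun t ht y hy => vs_rho hg ht (Ioc_mem ht) hy) hx (le_antisymm ?_ (h1 _ h0 x hx)) t ht
  have := rho_le (hg.met h0) hx v
  rw [h] at this
  exact nonpos_of_mul_nonpos_left this (hg.pos _ h0 x hx v hv)

/-- a null direction of the Ricci tensor forces rank one -/
theorem s1_rk (hx : x ∈ U) {v : E3} (hv : v ≠ 0) (h : Ric (g t0) x v v = 0) :
    ∀ t ∈ Ioc a t0, ∀ y ∈ U, Rk (g t) y := fun t ht y hy =>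
  rk_of (hg.met ht) hy (hs t ht y hy) (s1_rho hg hU hs hx hv h t ht y hy)

lemma s1_chart (hx : x ∈ U) {v : E3} (hv : v ≠ 0) (h : Ric (g t0) x v v = 0) (y : M) :
    ∀ t ∈ Ioc a t0, ∀ z ∈ dom E3 y U, Rk (co (g t) y) z ∧ ParP (co (g t) y) z := by
  intro t ht
  have hI := iv_Ioc (ht.1.trans_le ht.2)
  have h1 : ∀ t ∈ Ioc a t0, ∀ z ∈ dom E3 y U, Rk (co (g t) y) z := fun t ht z hz =>
    have H := li_comap (hg.met ht) (ld_symm y) hz.1 hz.2
    rk_of ((hg.co y).met ht) hz ((H.SecGe 0).2 (hs t ht _ hz.2))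
      ((li_rho H).trans (s1_rho hg hU hs hx hv h t ht _ hz.2))
  exact fun z hz => ⟨h1 t ht z hz, (par_iff (L := cl hg.toFam hI y)).1 (par_of (hg.co y)
    (rk1_of fun q => h1 _ (t_mem q) _ (x_mem q))) t ht z hz⟩

/-- **A splitting persists backward in time.** -/
theorem s2 (hb : Spl (g t0) U b) : ∀ t ∈ Ioc a t0, Spl (g t) U b := by
  intro t ht
  have h0 : t0 ∈ Ioc a t0 := ⟨ht.1.trans_le ht.2, le_rfl⟩
  have hI := iv_Ioc h0.1
  have sb := sm0_of hb.smooth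
  have p0 : ∀ x ∈ U, Ric (g t0) x (grad (g t0) b x) (grad (g t0) b x) = 0 := fun x hx =>
    ric_grad (hg.met h0) sb (r := 0) (by simpa using hb.hess) hx
  have n0 : ∀ x ∈ U, grad (g t0) b x ≠ 0 := fun x hx h => by
    have := gam_eq_grad (b := b) (hg.met h0) hx
    simp [h, hb.unit x hx] at this
  have c0 := fun x hx => s1_chart hg hU hs hx (n0 x hx) (p0 x hx)
  have z0 : ∀ s ∈ Ioc a t0, ∀ x ∈ U, Sc (g s) x = 0 → ∀ r ∈ Ioc a s, ∀ y ∈ U,
      Sc (g r) y = 0 ∧ g r y = g s y := fun s h1 x hx h r hr y hy =>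
    have k : Ioc a s ⊆ Ioc a t0 := Ioc_subset_Ioc_right h1.2
    ⟨s1_flat (hg.mono_time k) hU (fun t ht => hs t (k ht)) hx h r hr y hy,
      s1_const (hg.mono_time k) hU (fun t ht => hs t (k ht)) hx h r hr y hy⟩
  have pos : ∀ s ∈ Ioc a t0, ∀ x ∈ U, Sc (g s) x ≠ 0 → ∀ r ∈ Icc s t0, 0 < Sc (g r) x :=
    fun s h1 x hx h r hr =>
      have k : r ∈ Ioc a t0 := ⟨h1.1.trans_le hr.1, hr.2⟩
      (sc_nonneg (hg.met k) hx (hs r k x hx)).lt_of_ne' fun e => h (z0 r k x hx e s ⟨h1.1, hr.1⟩ x hx).1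
  have p1 : ∀ s ∈ Ioc a t0, ∀ x ∈ U, psi (co (g s) x) (rd E3 b x) (pt E3 x) = 0 := by
    intro s h1 x hx
    by_cases h : Sc (g s) x = 0
    · exact congrArg (fun B : Bil E3 => B _ _) (ric_zero (hg.met h1) hx (hs s h1 x hx) h)
    have k : Icc s t0 ⊆ Ioc a t0 := fun r hr => ⟨h1.1.trans_le hr.1, hr.2⟩
    refine ode_zero (ψ := fun s => psi (co (g s) x) (rd E3 b x) (pt E3 x))
      (S := fun s => Sc (co (g s) x) (pt E3 x) / 2) h1.2 (fun r hr => ⟨half_pos (by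
        rw [Sc_model]; exact pos s h1 x hx h r hr), ric_nonneg (hg.met (k hr)) hx
          (hs r (k hr) x hx) _⟩) (fun r hr => ?_) (p0 x hx)
    obtain ⟨ψ', S', a1, a2, a3⟩ := has_psi (L := cl hg.toFam hI x) (sb x)
      (sec (b := (r, pt E3 x)) ⟨k hr, pt_mem_dom hx⟩) (hg.co x)
      (rk1_of fun q => (c0 x hx x _ (t_mem q) _ (x_mem q)).1)
    exact ⟨ψ', S', a1.mono k, a2.mono k, a3⟩
  have u1 : ∀ s ∈ Ioc a t0, ∀ x ∈ U, gam (g s) b b x = 1 := fun s h1 x hx =>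
    (const_of_deriv (φ := fun s => gam (g s) b b x) (convex_Ioc a t0) (fun r hr =>
      (has_gam (L := cl hg.toFam hI x) (sb x) (sec (b := (r, pt E3 x)) ⟨hr, pt_mem_dom hx⟩)
        (hg.co x)).congr_deriv (mul_eq_zero_of_right _ (p1 r hr x hx))) h1 h0).trans (hb.unit x hx)
  have h1 : ∀ s ∈ Ioc a t0, ∀ x ∈ U, Sc (g s) x ≠ 0 → hess (g s) b x = 0 := fun s h1 x hx h =>
    st_hess ((hg.met h1).isMetricOn x) (sb x) (fun z hz => (c0 x hx x s h1 z hz).1)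
      (fun z hz => (c0 x hx x s h1 z hz).2)
      (fun z hz => (co_psi (hg.met h1) sb hz).trans (p1 s h1 _ hz.2))
      (fun z hz => (co_gam (hg.met h1) sb hz).trans (u1 s h1 _ hz.2)) (pt_mem_dom hx)
      (by rwa [Sc_model])
  refine ⟨hb.smooth, fun x hx => ?_, u1 t ht⟩
  by_cases h : Sc (g t) x = 0
  swap
  · exact h1 t ht x hx h
  have k : Icc t t0 ⊆ Ioc a t0 := fun r hr => ⟨ht.1.trans_le hr.1, hr.2⟩
  obtain ⟨T, ⟨T1, T2⟩, T3⟩ := (isCompact_Icc.of_isClosed_subset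
    ((((hg.toFam.contDiffOn_time_Sc hx).continuousOn.mono k).preimage_isClosed_of_isClosed
      isClosed_Icc (isClosed_singleton (x := 0)))) inter_subset_left).exists_isGreatest
    ⟨t, left_mem_Icc.2 ht.2, h⟩
  rw [hess_congr (h := g T) (eventually_of_mem (hg.isOpen.mem_nhds hx)
    fun y hy => (z0 T (k T1) x hx T2 t ⟨ht.1, T1.1⟩ y hy).2) EventuallyEq.rfl]
  rcases T1.2.eq_or_lt with rfl | T4
  · exact hb.hess x hx
  have c1 : ContinuousWithinAt (fun s => hess (g s) b x) (Ioc T t0) T :=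
    (((hg.toFam.ps (k T1) (pt_mem_dom hx)).hessG (k T1) (hg.toFam.co_pos (k T1) (pt_mem_dom hx))
      (ps_const (sm0_sa hg.isOpen sb hx) _ _)).time.continuousWithinAt).mono
      (Ioc_subset_Ioc_left (k T1).1.le)
  simpa using c1.mem_closure (t := {0}) (by rw [closure_Ioc T4.ne]; exact left_mem_Icc.2 T4.le)
    fun s h2 => h1 s ⟨(k T1).1.trans h2.1, h2.2⟩ x hx fun e =>
      not_le.2 h2.1 (T3 ⟨⟨T1.1.trans h2.1.le, h2.2⟩, e⟩)

/-- **Local splitting.** -/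
theorem s3 (hx : x ∈ U) {v : E3} (hv : v ≠ 0) (h : Ric (g t0) x v v = 0)
    (h0 : ∀ y ∈ U, 0 < Sc (g t0) y) (ha : a < t0) :
    ∀ y ∈ U, ∃ V ⊆ U, IsOpen V ∧ IsPreconnected V ∧ y ∈ V ∧ ∃ b, Spl (g t0) V b := by
  intro y hy
  have h1 : t0 ∈ Ioc a t0 := ⟨ha, le_rfl⟩
  have hm := hg.met h1
  have c0 := s1_chart hg hU hs hx hv h y t0 h1
  obtain ⟨r, hr, hV, f, f1, f2⟩ := st_loc (hm.isMetricOn y) (fun z hz => (c0 z hz).1)
    (fun z hz => (c0 z hz).2) (fun z hz => by rw [Sc_model, ← hm.rd_Sc hz]; exact h0 _ hz.2)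
    (pt_mem_dom hy)
  have e : (chartAt E3 y).symm '' ball (pt E3 y) r =
      (chartAt E3 y).source ∩ chartAt E3 y ⁻¹' ball (pt E3 y) r :=
    (chartAt E3 y).symm_image_eq_source_inter_preimage fun z hz => (hV hz).1
  have s1 : (chartAt E3 y).symm '' ball (pt E3 y) r ⊆ U := by
    rintro _ ⟨z, hz, rfl⟩; exact (hV hz).2
  have s2 : ∀ w ∈ (chartAt E3 y).symm '' ball (pt E3 y) r, LI (g t0) (co (g t0) y) (chartAt E3 y) w ∧
      chartAt E3 y w ∈ ball (pt E3 y) r ∧ ContDiffAt ℝ ∞ f (chartAt E3 y w) := fun w hw => by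
    have h2 := s1 hw
    rw [e] at hw
    exact ⟨li_chart hm h2 hw.1, hw.2, f1.contDiffAt (isOpen_ball.mem_nhds hw.2)⟩
  refine ⟨_, s1, e ▸ (chartAt E3 y).isOpen_inter_preimage isOpen_ball,
    (convex_ball _ _).isPreconnected.image _ ((chartAt E3 y).continuousOn_symm.mono
      fun z hz => (hV hz).1), ⟨_, mem_ball_self hr, symm_pt y⟩, f ∘ chartAt E3 y, fun w hw =>
      ((s2 w hw).2.2.contMDiffAt.comp w (s2 w hw).1.sm).contMDiffWithinAt, fun w hw => ?_,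
      fun w hw => ?_⟩
  · obtain ⟨a1, a2, a3⟩ := s2 w hw
    rw [a1.hess (a3.of_le (by norm_cast)), P216R.comap, hess_model, (f2 _ a2).1]
    ext; simp
  · obtain ⟨a1, a2, a3⟩ := s2 w hw
    rw [a1.gam (a3.differentiableAt (by simp)) (a3.differentiableAt (by simp)), gam_model,
      (f2 _ a2).2]

theorem s3_lsp (hx : x ∈ U) {v : E3} (hv : v ≠ 0) (h : Ric (g t0) x v v = 0)
    (h0 : ∀ y ∈ U, 0 < Sc (g t0) y) (ha : a < t0) : LSp g (Ioc a t0) U := fun y hy => by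
  obtain ⟨V, h1, h2, h3, h4, b, h5⟩ := s3 hg hU hs hx hv h h0 ha y hy
  exact ⟨V, h1, h2, h4, b, s2 (hg.mono_set h2 h1) h3 (fun t ht z hz => hs t ht z (h1 hz)) h5⟩

omit hU in
/-- **Cones are excluded.** -/
theorem s4 (ha : a < t0) {u : M → ℝ} (hu : ContMDiffOn 𝓘(ℝ, E3) 𝓘(ℝ, ℝ) ∞ u U)
    (h : ∀ y ∈ U, hess (g t0) u y = g t0 y) (hx : x ∈ U) : Sc (g t0) x = 0 := by
  have h1 : t0 ∈ Ioc a t0 := ⟨ha, le_rfl⟩
  by_contra hn
  have := ChartedSpace.locallyConnectedSpace E3 M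
  obtain ⟨V, V1, V2, V3, V4⟩ := locallyConnectedSpace_iff_subsets_isOpen_isConnected.1 this x _
    ((hg.isOpen.eventually_mem hx).and
      (((hg.met h1).contMDiffAt_Sc hx).continuousAt.eventually_ne hn))
  have k : V ⊆ U := fun y hy => (V1 hy).1
  have hm := (hg.met h1).mono V2 k
  have su := sm0_of (hu.mono k)
  have g0 : ∀ y ∈ V, grad (g t0) u y = 0 := fun y hy => by
    by_contra h2
    have c0 := s1_chart (hg.mono_set V2 k) V4.isPreconnected (fun t ht z hz => hs t ht z (k hz)) hy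
      h2 (ric_grad hm su (r := 1) (fun z hz => by simpa using h z (k hz)) hy) y t0 h1
    have h3 := st_cone (hm.isMetricOn y) (su y) (fun z hz => (c0 z hz).1) (fun z hz => (c0 z hz).2)
      (fun z hz => by rw [co_hess hm su hz]; exact comap_congr_right _ (h _ (k hz.2)))
      (pt_mem_dom hy)
    rw [Sc_model] at h3
    exact (hm.pos y hy _ h2).ne' ((gam_eq_grad hm hy).symm.trans
      ((mul_eq_zero.1 h3).resolve_left (V1 hy).2))
  have h2 : fderiv ℝ (rd E3 u x) =ᶠ[𝓝 (pt E3 x)] fun _ => 0 := by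
    filter_upwards [(isOpen_dom x V2).mem_nhds (pt_mem_dom V3)] with z hz
    have h3 := co_gam hm su hz
    rw [gam_eq_grad hm hz.2, g0 _ hz.2, map_zero, gamG] at h3
    have h4 := (hm.isMetricOn x).pos z hz
    rw [← app_inverse h4 (fderiv ℝ (rd E3 u x) z)] at h3 ⊢
    rw [by_contra fun h5 => (h4 _ h5).ne' h3, map_zero]
  obtain ⟨v, hv⟩ := exists_ne (0 : E3)
  have h3 := hm.pos x V3 v hv
  rw [← h x hx, hess, hessG_apply, h2.fderiv_eq, h2.self_of_nhds] at h3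
  simp at h3

omit hg hU hs

theorem s2_anc (h : Anc g U) (hb : Spl (g 0) U b) : ∀ t ≤ 0, Spl (g t) U b := fun t ht =>
  s2 (a := t - 1) (h.rf.mono_time fun _ hs => hs.2) h.conn (fun s hs => h.sec s hs.2) hb t
    ⟨by linarith, ht⟩

theorem s3_anc (h : Anc g U) (hx : x ∈ U) {v : E3} (hv : v ≠ 0) (h1 : Ric (g 0) x v v = 0)
    (h0 : ∀ y ∈ U, 0 < Sc (g 0) y) : LSp g (Iic 0) U := fun y hy => by
  obtain ⟨V, h1, h2, h3, h4, b, h5⟩ := s3 (a := -1) (h.rf.mono_time fun _ hs => hs.2) h.conn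
    (fun s hs => h.sec s hs.2) hx hv h1 h0 (by norm_num) y hy
  exact ⟨V, h1, h2, h4, b, fun t ht => s2 (a := t - 1) (h.rf.mono (fun _ hs => hs.2) h2 h1) h3
    (fun s hs z hz => h.sec s hs.2 z (h1 hz)) h5 t ⟨by linarith, ht⟩⟩

theorem flat_anc (h : Anc g U) (hx : x ∈ U) (h0 : Sc (g 0) x = 0) :
    ∀ t ≤ 0, ∀ y ∈ U, Sc (g t) y = 0 := fun t ht =>
  s1_flat (a := t - 1) (h.rf.mono_time fun _ hs => hs.2) h.conn (fun s hs => h.sec s hs.2) hx h0 t
    ⟨by linarith, ht⟩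

end Vale.Agent.P216MP
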