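import Vale.Agent.P216MP.First
import Mathlib.Analysis.SpecialFunctions.ExpDeriv
import Mathlib.Analysis.Complex.ExponentialBounds

/-! # The weak maximum principle on an abstract space-time, and the curvature estimates -/

open Set Filter Topology

namespace Vale.Agent.P216MP

variable {Y : Type*} [TopologicalSpace Y] {S : Set Y} {τ u v : Y → ℝ} {p : Y} {c : ℝ}

/-- `(∂ₜ - Δ) u ≥ c` at `p`, tested with linear functions of the time `τ` -/
def TS (S : Set Y) (τ u : Y → ℝ) (p : Y) (c : ℝ) : Prop :=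
  ∀ d : ℝ, (∀ᶠ q in 𝓝[S] p, τ q ≤ τ p → u p - d * τ p ≤ u q - d * τ q) → c ≤ d

lemma left_slope {h : ℝ → ℝ} {d t η : ℝ} (hh : HasDerivWithinAt h d (Iic t) t) (hη : 0 < η) :
    ∀ᶠ s in 𝓝 t, s ≤ t → h t + (d + η) * (s - t) ≤ h s := by
  have h1 := hasDerivWithinAt_iff_tendsto_slope' (x := t) (s := Iio t) (by simp) |>.1
    (hh.mono Iio_subset_Iic_self)
  have h2 := eventually_nhdsWithin_iff.1 (h1.eventually (gt_mem_nhds (lt_add_of_pos_right d hη)))
  filter_upwards [h2] with s hs hle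
  rcases hle.eq_or_lt with rfl | hlt
  · simp
  · have h3 := hs hlt
    rw [slope_def_field, div_lt_iff_of_neg (sub_neg.2 hlt)] at h3
    linarith

lemma TS.deriv (H : TS S τ u p c) (hτ : ContinuousWithinAt τ S p) {h : ℝ → ℝ} {d : ℝ}
    (hh : HasDerivWithinAt h d (Iic (τ p)) (τ p))
    (hm : ∀ᶠ q in 𝓝[S] p, τ q ≤ τ p → u p - h (τ p) ≤ u q - h (τ q)) : c ≤ d := by
  refine le_of_forall_pos_le_add fun η hη => H _ ?_
  filter_upwards [hm, hτ.eventually (left_slope hh hη)] with q h1 h2 hle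
  linarith [h1 hle, h2 hle]

lemma TS.of_le (H : TS S τ v p c) (hτ : ContinuousWithinAt τ S p) {h : ℝ → ℝ} {d : ℝ}
    (hh : HasDerivWithinAt h d (Iic (τ p)) (τ p))
    (hm : ∀ᶠ q in 𝓝[S] p, τ q ≤ τ p → u q - u p ≤ v q + h (τ q) - (v p + h (τ p))) :
    TS S τ u p (c + d) := fun e he => by
  have := H.deriv hτ (h := fun s => e * s - h s)
    (((hasDerivWithinAt_id _ _).const_mul e).sub hh) (by
      filter_upwards [hm, he] with q h1 h2 hle
      linarith [h1 hle, h2 hle])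
  linarith

lemma TS.mono (H : TS S τ u p c) {c' : ℝ} (h : c' ≤ c) : TS S τ u p c' :=
  fun d hd => h.trans (H d hd)

lemma TS.of_forall (H : ∀ η > 0, TS S τ u p (c - η)) : TS S τ u p c := fun d hd =>
  le_of_forall_pos_le_add fun η hη => by linarith [H η hη d hd]

/-- **The weak maximum principle.** -/
theorem wmp {T : Set Y} {K : ℝ} (hT : IsCompact T) (hTS : T ⊆ S) (hτ : ContinuousOn τ S)
    (hu : ContinuousOn u T) (h0 : ∀ q ∈ S, q ∉ T → 0 ≤ u q)
    (h : ∀ p ∈ T, u p < 0 → TS S τ u p (K * u p)) : ∀ p ∈ S, 0 ≤ u p := by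
  by_contra hn
  push Not at hn
  obtain ⟨p0, hp0, h1⟩ := hn
  have h2 : p0 ∈ T := by_contra fun h3 => absurd (h0 p0 hp0 h3) (not_le.2 h1)
  obtain ⟨p, hp, h3⟩ := hT.exists_isMinOn ⟨p0, h2⟩
    (f := fun q => u q * Real.exp (-((K + 1) * τ q)))
    (hu.mul ((continuousOn_const.mul (hτ.mono hTS)).neg.rexp))
  obtain ⟨m, hm⟩ : ∃ m, m = u p * Real.exp (-((K + 1) * τ p)) := ⟨_, rfl⟩
  have e1 : ∀ q, u q = u q * Real.exp (-((K + 1) * τ q)) * Real.exp ((K + 1) * τ q) := fun q => by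
    rw [mul_assoc, ← Real.exp_add]; simp
  have h4 : m < 0 := hm ▸ (h3 h2).trans_lt (mul_neg_of_neg_of_pos h1 (Real.exp_pos _))
  have h5 : u p = m * Real.exp ((K + 1) * τ p) := hm ▸ e1 p
  have h6 : u p < 0 := h5 ▸ mul_neg_of_neg_of_pos h4 (Real.exp_pos _)
  have h7 := (h p hp h6).deriv (hτ p (hTS hp)) (h := fun s => m * Real.exp ((K + 1) * s))
    ((((hasDerivAt_id _).const_mul (K + 1)).exp.const_mul m).hasDerivWithinAt) (by
      filter_upwards [self_mem_nhdsWithin] with q hq _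
      rw [← h5, sub_self, sub_nonneg]
      by_cases h8 : q ∈ T
      · rw [e1 q]
        exact mul_le_mul_of_nonneg_right (hm ▸ h3 h8) (Real.exp_pos _).le
      · exact (mul_neg_of_neg_of_pos h4 (Real.exp_pos _)).le.trans (h0 q hq h8))
  simp only [id, mul_one, ← mul_assoc, ← h5] at h7
  nlinarith

/-- the evolution inequalities for the scalar curvature `R` and the least sectional
curvature `ν` -/
def Cur (S : Set Y) (τ R ν : Y → ℝ) (p : Y) : Prop :=
  ∃ l m : ℝ, ν p ≤ l ∧ ν p ≤ m ∧ R p = 2 * (l + m + ν p) ∧ ∀ α β : ℝ, 0 ≤ β →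
    TS S τ (fun q => α * R q + β * ν q) p
      (α * (2 * ((l + m) ^ 2 + (l + ν p) ^ 2 + (m + ν p) ^ 2)) + β * (2 * (ν p ^ 2 + l * m)))

variable {R ν : Y → ℝ}

lemma Cur.scal (H : Cur S τ R ν p) : TS S τ R p (2 / 3 * R p ^ 2) := by
  obtain ⟨l, m, -, -, h3, h4⟩ := H
  have h5 := h4 1 0 le_rfl
  simp only [one_mul, zero_mul, add_zero] at h5
  refine h5.mono ?_
  rw [h3]
  nlinarith [sq_nonneg (l - m), sq_nonneg (l - ν p), sq_nonneg (m - ν p)]

lemma Cur.least (H : Cur S τ R ν p) : TS S τ ν p ((R p - 2 * ν p) * ν p) := by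
  obtain ⟨l, m, h1, h2, h3, h4⟩ := H
  have h5 := h4 0 1 zero_le_one
  simp only [one_mul, zero_mul, zero_add] at h5
  refine h5.mono ?_
  rw [h3]
  nlinarith [mul_nonneg (sub_nonneg.2 h1) (sub_nonneg.2 h2)]

/-- **Lower bounds for the scalar curvature.** -/
theorem scal_ge (hS : IsCompact S) (hτ : ContinuousOn τ S) (hR : ContinuousOn R S)
    {φ φ' : ℝ → ℝ} (hφ : ContinuousOn (fun q => φ (τ q)) S)
    (h : ∀ p ∈ S, φ (τ p) ≤ R p ∨ (TS S τ R p (2 / 3 * R p ^ 2) ∧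
      HasDerivWithinAt φ (φ' (τ p)) (Iic (τ p)) (τ p) ∧ φ' (τ p) ≤ 2 / 3 * φ (τ p) ^ 2)) :
    ∀ p ∈ S, φ (τ p) ≤ R p := by
  obtain ⟨K, hK⟩ := hS.bddAbove_image (hR.add hφ)
  refine fun p hp => sub_nonneg.1 (wmp (u := fun q => R q - φ (τ q)) (K := 2 / 3 * K) hS
    subset_rfl hτ (hR.sub hφ) (fun q hq h1 => (h1 hq).elim) (fun p hp h1 => ?_) p hp)
  obtain ⟨h2, h3, h4⟩ := (h p hp).resolve_left (not_le.2 (sub_neg.1 h1))
  refine (h2.of_le (hτ p hp) h3.neg (Eventually.of_forall fun q _ => ?_)).mono ?_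
  · simp only [Pi.neg_apply]; linarith
  · have h5 : R p + φ (τ p) ≤ K := hK ⟨p, hp, rfl⟩
    nlinarith [mul_le_mul_of_nonneg_right h5 (neg_nonneg.2 h1.le)]

/-- **Nonnegative sectional curvature is preserved.** -/
theorem least_nonneg (hS : IsCompact S) (hτ : ContinuousOn τ S) (hR : ContinuousOn R S)
    (hν : ContinuousOn ν S) (h : ∀ p ∈ S, 0 ≤ ν p ∨ Cur S τ R ν p) : ∀ p ∈ S, 0 ≤ ν p := by
  obtain ⟨K, hK⟩ := hS.bddAbove_image (hR.sub (continuousOn_const (c := (2 : ℝ)).mul hν))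
  refine wmp (K := K) hS subset_rfl hτ hν (fun q hq h1 => (h1 hq).elim) fun p hp h1 => ?_
  refine ((h p hp).resolve_left (not_le.2 h1)).least.mono ?_
  exact mul_le_mul_of_nonpos_right (hK ⟨p, hp, rfl⟩) h1.le

/-- the pinching condition of Hamilton and Ivey at the age `τ` -/
def Pinch (R ν τ : ℝ) : Prop := -3 / τ ≤ R ∧ (ν < 0 → ivey (-2 * ν) τ ≤ R)

/-- the monotone envelope of `ivey` -/
noncomputable def ivey' (X τ : ℝ) : ℝ := ivey (max X (Real.exp 2 / τ)) τ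

lemma three_lt_exp : 3 < Real.exp 2 := by
  have := Real.add_one_lt_exp (x := 2) two_ne_zero
  linarith

lemma ivey'_small {X τ : ℝ} (hτ : 0 < τ) (h : X ≤ Real.exp 2 / τ) : ivey' X τ < -3 / τ := by
  rw [ivey', max_eq_right h, ivey, div_mul_cancel₀ _ hτ.ne', Real.log_exp, lt_div_iff₀ hτ]
  have := three_lt_exp
  field_simp
  linarith

lemma pinch_iff {R ν τ : ℝ} (hτ : 0 < τ) (h1 : 6 * ν ≤ R) (h2 : -3 / τ ≤ R) :
    Pinch R ν τ ↔ ivey' (-2 * ν) τ ≤ R := by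
  have h3 : 0 < Real.exp 2 / τ := by positivity
  rcases le_total (-2 * ν) (Real.exp 2 / τ) with h | h
  · refine iff_of_true ⟨h2, fun h4 => ivey_small (by linarith) hτ ?_ (by linarith) h2⟩
      ((ivey'_small hτ h).le.trans h2)
    rw [Real.log_le_iff_le_exp (mul_pos (by linarith) hτ)]
    exact (le_div_iff₀ hτ).1 h
  · rw [ivey', max_eq_left h]
    exact ⟨fun h4 => h4.2 (by linarith), fun h4 => ⟨h2, fun _ => h4⟩⟩

lemma Cur.pinch_step (H : Cur S τ R ν p) (hτ : ContinuousWithinAt τ S p) (hν : ContinuousWithinAt ν S p)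
    (h0 : 0 < τ p) (h1 : -3 / τ p ≤ R p) (h2 : R p < ivey' (-2 * ν p) (τ p)) :
    TS S τ (fun q => R q - ivey' (-2 * ν q) (τ q)) p
      ((R p - 2 * ν p) * (R p - ivey' (-2 * ν p) (τ p))) := by
  obtain ⟨l, m, a1, a2, a3, a4⟩ := H
  obtain ⟨X, hX⟩ : ∃ X, X = -2 * ν p := ⟨_, rfl⟩
  rw [← hX] at h2 ⊢
  have b1 : Real.exp 2 / τ p < X := lt_of_not_ge fun h => by linarith [ivey'_small h0 h]
  have b2 : Real.exp 2 < X * τ p := (div_lt_iff₀ h0).1 b1
  have b3 : 0 < X := (div_pos (Real.exp_pos 2) h0).trans b1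
  have b4 : ivey' X (τ p) = ivey X (τ p) := by rw [ivey', max_eq_left b1.le]
  obtain ⟨k, hk⟩ : ∃ k, k = Real.log (X * τ p) - 2 := ⟨_, rfl⟩
  have b5 : 0 < k := by
    rw [hk, sub_pos, Real.lt_log_iff_exp_lt (by positivity)]; exact b2
  refine TS.of_forall fun η hη => ((a4 1 (2 * k) (by positivity)).of_le hτ
    (h := fun s => -(X + η * τ p) * Real.log s)
    ((Real.hasDerivAt_log h0.ne').const_mul _).hasDerivWithinAt ?_).mono ?_
  · have c1 : ContinuousWithinAt (fun q => max (-2 * ν q) (Real.exp 2 / τ q)) S p :=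
      (continuousWithinAt_const.mul hν).max (continuousWithinAt_const.div hτ h0.ne')
    have c2 : max (-2 * ν p) (Real.exp 2 / τ p) < X + η * τ p := by
      rw [← hX, max_eq_left b1.le]; nlinarith
    filter_upwards [c1.eventually (gt_mem_nhds c2), hτ.eventually (lt_mem_nhds h0)]
      with q d1 d2 d3
    obtain ⟨Z, hZ⟩ : ∃ Z, Z = max (-2 * ν q) (Real.exp 2 / τ q) := ⟨_, rfl⟩
    have d4 : 0 < Z := hZ ▸ lt_max_of_lt_right (by positivity)
    have d5 : -2 * ν q ≤ Z := hZ ▸ le_max_left _ _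
    have d6 := ivey_tangent b3 d4 h0
    have d7 : ivey' (-2 * ν q) (τ q) = ivey Z (τ p) + Z * (Real.log (τ q) - Real.log (τ p)) := by
      rw [ivey', ← hZ, ivey, ivey, Real.log_mul d4.ne' d2.ne', Real.log_mul d4.ne' h0.ne']
      ring
    have d8 := Real.log_le_log d2 d3
    rw [← hZ] at d1
    rw [← hk] at d6
    have d9 : k * X = -2 * (k * ν p) := by rw [hX]; ring
    rw [d7, ← hX, b4]
    nlinarith [mul_le_mul_of_nonneg_left d5 b5.le, mul_nonneg (sub_nonneg.2 d8) (sub_nonneg.2 d1.le)]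
  · rw [b4] at h2 ⊢
    have e1 : ivey X (τ p) = X * (k - 1) := by rw [ivey, hk]; ring
    have e2 : ν p = -X / 2 := by linarith
    have e3 := ivey_alg b3.le (s := 2 * l + 2 * m) (q := 4 * (l * m)) (by nlinarith [sq_nonneg (l - m)])
      (by linarith) (by nlinarith [mul_nonneg (sub_nonneg.2 a1) (sub_nonneg.2 a2)])
    have e4 : -(X + η * τ p) * (τ p)⁻¹ = -(X * (τ p)⁻¹) - η := by field_simp; ring
    have e5 : (τ p)⁻¹ ≤ X := by
      rw [inv_le_iff_one_le_mul₀ h0]; linarith [three_lt_exp]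
    obtain ⟨δ, hδ⟩ : ∃ δ, δ = X * (k - 1) - R p := ⟨_, rfl⟩
    have e6 : 0 < δ := by linarith
    have e7 : 0 ≤ 4 * (l * m) + X * (2 * l + 2 * m) + X ^ 2 := by
      nlinarith [mul_nonneg (sub_nonneg.2 a1) (sub_nonneg.2 a2)]
    have e8 : X * k = 2 * l + 2 * m + δ := by linarith
    rw [e1, e4, a3, e2]
    refine le_of_mul_le_mul_left ?_ b3
    have e9 : X * (2 * k * (2 * ((-X / 2) ^ 2 + l * m))) =
        (2 * l + 2 * m + δ) * (X ^ 2 + 4 * (l * m)) := by rw [← e8]; ring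
    have e10 : X * (k - 1) = 2 * l + 2 * m + δ - X := by linarith
    rw [e10]
    nlinarith [mul_nonneg e6.le e7, mul_nonneg (sq_nonneg X) (sub_nonneg.2 e5)]

/-- **The Hamilton-Ivey estimate.** -/
theorem pinch (hS : IsCompact S) (hτ : ContinuousOn τ S) (hR : ContinuousOn R S)
    (hν : ContinuousOn ν S) (h0 : ∀ p ∈ S, 0 < τ p) (h1 : ∀ p ∈ S, 6 * ν p ≤ R p)
    (h : ∀ p ∈ S, Pinch (R p) (ν p) (τ p) ∨ Cur S τ R ν p) :
    ∀ p ∈ S, Pinch (R p) (ν p) (τ p) := by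
  have h2 : ∀ p ∈ S, -3 / τ p ≤ R p := by
    refine scal_ge hS hτ hR (φ := fun s => -3 / s) (φ' := fun s => 3 / s ^ 2)
      (continuousOn_const.div hτ fun p hp => (h0 p hp).ne') fun p hp => (h p hp).imp And.left
      fun H => ⟨H.scal, ?_, ?_⟩
    · refine (((hasDerivAt_const _ (-3 : ℝ)).div (hasDerivAt_id _) (h0 p hp).ne').congr_deriv
        ?_).hasDerivWithinAt
      simp
    · have := h0 p hp
      rw [div_pow, mul_div_assoc']
      gcongr
      norm_num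
  obtain ⟨K, hK⟩ := hS.bddAbove_image (hR.sub (continuousOn_const (c := (2 : ℝ)).mul hν))
  have c1 : ContinuousOn (fun q => max (-2 * ν q) (Real.exp 2 / τ q)) S :=
    (continuousOn_const.mul hν).sup (continuousOn_const.div hτ fun p hp => (h0 p hp).ne')
  have c2 : ContinuousOn (fun q => ivey' (-2 * ν q) (τ q)) S :=
    c1.mul (((c1.mul hτ).log fun p hp => (mul_pos (lt_max_of_lt_right
      (div_pos (Real.exp_pos 2) (h0 p hp))) (h0 p hp)).ne').sub continuousOn_const)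
  refine fun p hp => (pinch_iff (h0 p hp) (h1 p hp) (h2 p hp)).2 (sub_nonneg.1 (wmp (K := K) hS
    subset_rfl hτ (hR.sub c2) (fun q hq h1 => (h1 hq).elim) (fun p hp h3 => ?_) p hp))
  have h4 : R p < ivey' (-2 * ν p) (τ p) := sub_neg.1 h3
  have h5 := (h p hp).resolve_left fun h5 =>
    not_le.2 h4 ((pinch_iff (h0 p hp) (h1 p hp) (h2 p hp)).1 h5)
  exact (h5.pinch_step (hτ p hp) (hν p hp) (h0 p hp) (h2 p hp) h4).mono
    (mul_le_mul_of_nonpos_right (hK ⟨p, hp, rfl⟩) h3.le)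

lemma Pinch.of_small {R ν τ : ℝ} (hτ : 0 < τ) (h1 : 6 * ν ≤ R) (h2 : -2 * ν * τ ≤ 1) :
    Pinch R ν τ := by
  refine ⟨?_, fun h => ?_⟩
  · rw [div_le_iff₀ hτ]; nlinarith
  · have := Real.log_nonpos (mul_pos (by linarith) hτ).le h2
    unfold ivey
    nlinarith

lemma Pinch.mono {R ν τ τ' : ℝ} (h : Pinch R ν τ) (h0 : 0 < τ') (h1 : τ' ≤ τ) : Pinch R ν τ' := by
  refine ⟨le_trans ?_ h.1, fun h2 => (ivey_mono (by linarith) h0 h1).trans (h.2 h2)⟩
  rw [neg_div, neg_div, neg_le_neg_iff]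
  gcongr

end Vale.Agent.P216MP
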