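import Vale.Agent.P216MP.LapG
import Vale.Agent.P216MP.Weak
import Vale.Agent.P216R.Nat

/-! # Supersolutions of the heat equation on a manifold, barriers, the weak maximum principle -/

open Set Filter Topology
open scoped ContDiff Manifold

set_option maxSynthPendingDepth 3
set_option linter.unusedSectionVars false

noncomputable section

namespace Vale.Agent.P216MP

open P216R P219.RG
open P210.R2.H53 (gradG gamG hessG lapG)

variable {E : Type} [NormedAddCommGroup E] [NormedSpace ℝ E]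
  {M : Type} [TopologicalSpace M] [ChartedSpace E M]

variable (E) in
/-- `f` is smooth at `x` -/
abbrev SA (f : M → ℝ) (x : M) : Prop := ContDiffAt ℝ ∞ (rd E f x) (pt E x)

variable {g : Ten E M} {f k : M → ℝ} {u v w : ℝ → M → ℝ} {t c c' d d' : ℝ} {x : M} {U : Set M}
  {I : Set ℝ}

lemma sa_of (h : ContMDiffAt 𝓘(ℝ, E) 𝓘(ℝ, ℝ) ∞ f x) : SA E f x := by
  have h1 := (contMDiffAt_iff.1 h).2
  simp only [mfld_simps, contDiffWithinAt_univ] at h1
  exact h1

lemma SA.cont (h : SA E f x) : ContinuousAt f x := by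
  have h1 := ContinuousAt.comp (f := chartAt E x) h.continuousAt
    ((chartAt E x).continuousAt (mem_chart_source E x))
  refine h1.congr ?_
  filter_upwards [(chartAt E x).open_source.mem_nhds (mem_chart_source E x)] with y hy
  simp [rd, (chartAt E x).left_inv hy]

lemma SA.contMDiffAt (h : SA E f x) : ContMDiffAt 𝓘(ℝ, E) 𝓘(ℝ, ℝ) ∞ f x :=
  contMDiffAt_iff.2 ⟨h.cont, by simp only [mfld_simps, contDiffWithinAt_univ]; exact h⟩

lemma sa_const (c : ℝ) : SA E (fun _ => c) x := contDiffAt_const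

lemma ev_rd {P : M → Prop} (h : ∀ᶠ y in 𝓝 x, P y) :
    ∀ᶠ z in 𝓝 (pt E x), P ((chartAt E x).symm z) := (tendsto_symm_pt x).eventually h

lemma SA.comp {η : ℝ → ℝ} (h : SA E f x) (hη : ContDiffAt ℝ ∞ η (f x)) :
    SA E (fun y => η (f y)) x :=
  ContDiffAt.comp (pt E x) (g := η) (by rwa [symm_pt]) h

/-- the differential vanishes at a local minimum -/
lemma fderiv_rd_zero (h : ∀ᶠ y in 𝓝 x, f x ≤ f y) : fderiv ℝ (rd E f x) (pt E x) = 0 :=
  IsLocalMin.fderiv_eq_zero (by simp only [IsLocalMin, IsMinFilter, rd_pt]; exact ev_rd h)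

lemma grad_zero (h : ∀ᶠ y in 𝓝 x, f x ≤ f y) : grad g f x = 0 := by
  simp [grad, gradG, fderiv_rd_zero h]

lemma gam_zero_left (h : ∀ᶠ y in 𝓝 x, f x ≤ f y) : gam g f k x = 0 := by
  simp [gam, gamG, fderiv_rd_zero h]

lemma gam_zero_right (h : ∀ᶠ y in 𝓝 x, f x ≤ f y) : gam g k f x = 0 := by
  simp [gam, gamG, gradG, fderiv_rd_zero h]

lemma lap_add (hf : SA E f x) (hk : SA E k x) :
    lap g (fun y => f y + k y) x = lap g f x + lap g k x := lapG_add hf hk

lemma lap_sub (hf : SA E f x) (hk : SA E k x) :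
    lap g (fun y => f y - k y) x = lap g f x - lap g k x := lapG_sub hf hk

lemma lap_const_mul (c : ℝ) (hf : SA E f x) : lap g (fun y => c * f y) x = c * lap g f x :=
  lapG_const_mul c hf

lemma lap_neg (hf : SA E f x) : lap g (fun y => -f y) x = -lap g f x := lapG_neg hf

lemma lap_const (c : ℝ) : lap g (fun _ => c) x = 0 := lapG_const c

variable [FiniteDimensional ℝ E]

lemma lap_comp {η η1 : ℝ → ℝ} {η2 : ℝ} (hf : SA E f x)
    (h1 : ∀ᶠ s in 𝓝 (f x), HasDerivAt η (η1 s) s) (h2 : HasDerivAt η1 η2 (f x)) :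
    lap g (fun y => η (f y)) x = η1 (f x) * lap g f x + η2 * gam g f f x := by
  have := lapG_comp (G := co g x) hf (by rwa [rd_pt]) (by rwa [rd_pt])
  rwa [rd_pt] at this

/-- `(∂ₜ - Δ) u ≥ c` at `(t, x)` in the viscosity sense (only the past of `t` is seen) -/
def Vs (g : Ten E M) (u : ℝ → M → ℝ) (t : ℝ) (x : M) (c : ℝ) : Prop :=
  ∀ (d : ℝ) (f : M → ℝ), SA E f x → (∀ᶠ s in 𝓝[<] t, u t x - d * t ≤ u s x - d * s) →
    (∀ᶠ y in 𝓝 x, u t x - f x ≤ u t y - f y) → c ≤ d - lap g f x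

variable (E) in
/-- `f` is an upper support function in space, `d` bounds the left derivative from below -/
structure Up (w : ℝ → M → ℝ) (t : ℝ) (x : M) (d : ℝ) (f : M → ℝ) : Prop where
  sm : SA E f x
  eq : f x = w t x
  space : ∀ᶠ y in 𝓝 x, w t y ≤ f y
  time : ∀ η > 0, ∀ᶠ s in 𝓝[<] t, w s x ≤ w t x + (d - η) * (s - t)

lemma Vs.mono (h : Vs g u t x c) (hc : c' ≤ c) : Vs g u t x c' :=
  fun d f h1 h2 h3 => hc.trans (h d f h1 h2 h3)

lemma Vs.of_forall (h : ∀ η > 0, Vs g u t x (c - η)) : Vs g u t x c := fun d f h1 h2 h3 =>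
  le_of_forall_pos_le_add fun η hη => by linarith [h η hη d f h1 h2 h3]

/-- a function touching from above -/
lemma Vs.of_le (h : Vs g v t x c) (e : u t x = v t x) (h1 : ∀ᶠ s in 𝓝[<] t, u s x ≤ v s x)
    (h2 : ∀ᶠ y in 𝓝 x, u t y ≤ v t y) : Vs g u t x c := fun d f a1 a2 a3 =>
  h d f a1 (by filter_upwards [h1, a2] with s b1 b2; linarith)
    (by filter_upwards [h2, a3] with s b1 b2; linarith)

lemma Vs.deriv (h : Vs g u t x c) {φ : ℝ → ℝ} (hφ : HasDerivWithinAt φ d (Iic t) t) (hf : SA E f x)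
    (h1 : ∀ᶠ s in 𝓝[<] t, u t x - φ t ≤ u s x - φ s) (h2 : ∀ᶠ y in 𝓝 x, u t x - f x ≤ u t y - f y) :
    c ≤ d - lap g f x := by
  refine le_of_forall_pos_le_add fun η hη => ?_
  have := h (d + η) f hf (by
    filter_upwards [h1, mem_nhdsWithin_of_mem_nhds (left_slope hφ hη), self_mem_nhdsWithin]
      with s b1 b2 b3
    linarith [b2 (le_of_lt b3)]) h2
  linarith

lemma Vs.add_up (h : Vs g u t x c) (H : Up E w t x d f) :
    Vs g (fun s y => u s y + w s y) t x (c + (d - lap g f x)) := by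
  refine Vs.of_forall fun η hη e k a1 a2 a3 => ?_
  have := h (e - (d - η)) (fun y => k y - f y) (a1.sub H.sm)
    (by filter_upwards [H.time η hη, a2] with s b1 b2; linarith)
    (by filter_upwards [H.space, a3] with s b1 b2; linarith [H.eq])
  rw [lap_sub a1 H.sm] at this
  linarith

lemma Vs.const_mul (h : Vs g u t x c) {a : ℝ} (ha : 0 < a) :
    Vs g (fun s y => a * u s y) t x (a * c) := fun d f a1 a2 a3 => by
  have := h (a⁻¹ * d) (fun y => a⁻¹ * f y) (contDiffAt_const.mul a1)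
    (by filter_upwards [a2] with s b
        refine le_of_mul_le_mul_left ?_ ha
        simpa only [mul_sub, mul_assoc, mul_inv_cancel_left₀ ha.ne'] using b)
    (by filter_upwards [a3] with s b
        refine le_of_mul_le_mul_left ?_ ha
        simpa only [mul_sub, mul_assoc, mul_inv_cancel_left₀ ha.ne'] using b)
  rw [lap_const_mul _ a1, ← mul_sub] at this
  simpa only [mul_inv_cancel_left₀ ha.ne'] using mul_le_mul_of_nonneg_left this ha.le

lemma Vs.ts (h : Vs g u t x c) {S : Set (ℝ × M)} (h1 : ∀ᶠ s in 𝓝[<] t, (s, x) ∈ S)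
    (h2 : ∀ᶠ y in 𝓝 x, (t, y) ∈ S) : TS S Prod.fst (fun q => u q.1 q.2) (t, x) c := fun d hd => by
  have a1 : Tendsto (fun s => (s, x)) (𝓝[<] t) (𝓝[S] (t, x)) := tendsto_nhdsWithin_iff.2
    ⟨((Continuous.prodMk_left x).tendsto t).mono_left nhdsWithin_le_nhds, h1⟩
  have a2 : Tendsto (fun y => (t, y)) (𝓝 x) (𝓝[S] (t, x)) := tendsto_nhdsWithin_iff.2
    ⟨(Continuous.prodMk_right t).tendsto x, h2⟩
  have := h d (fun _ => 0) (sa_const 0)
    (by filter_upwards [a1.eventually hd, self_mem_nhdsWithin] with s b1 b2 using b1 (le_of_lt b2))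
    (by filter_upwards [a2.eventually hd] with s b1; linarith [b1 le_rfl])
  rwa [lap_const, sub_zero] at this

/-- smooth functions -/
lemma up_smooth (hI : I ∈ 𝓝[<] t) (h : HasDerivWithinAt (fun s => w s x) d I t)
    (hw : SA E (w t) x) : Up E w t x d (w t) := by
  refine ⟨hw, rfl, Eventually.of_forall fun _ => le_rfl, fun η hη => ?_⟩
  have h1 : HasDerivWithinAt (fun s => w s x) d (Iic t) t :=
    (h.mono_of_mem_nhdsWithin hI).Iic_of_Iio
  filter_upwards [mem_nhdsWithin_of_mem_nhds (left_slope h1.neg hη), self_mem_nhdsWithin]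
    with s b1 b2
  have := b1 (le_of_lt b2)
  simp only [Pi.neg_apply] at this
  linarith

lemma up_time {φ : ℝ → ℝ} (hI : I ∈ 𝓝[<] t) (h : HasDerivWithinAt φ d I t) :
    Up E (fun s (_ : M) => φ s) t x d fun _ => φ t := up_smooth hI h (sa_const _)

lemma Up.of_le (H : Up E v t x d f) (e : w t x = v t x) (h1 : ∀ᶠ s in 𝓝[<] t, w s x ≤ v s x)
    (h2 : ∀ᶠ y in 𝓝 x, w t y ≤ v t y) : Up E w t x d f :=
  ⟨H.sm, H.eq.trans e.symm, by filter_upwards [h2, H.space] with y b1 b2 using b1.trans b2,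
    fun η hη => by filter_upwards [h1, H.time η hη] with s b1 b2; linarith⟩

lemma Up.mono (H : Up E w t x d f) (h : d' ≤ d) : Up E w t x d' f :=
  ⟨H.sm, H.eq, H.space, fun η hη => by
    simpa using H.time (η + (d - d')) (by linarith) |>.mono fun s b => by
      convert b using 2; ring⟩

lemma Up.add (H : Up E w t x d f) (H' : Up E v t x d' k) :
    Up E (fun s y => w s y + v s y) t x (d + d') fun y => f y + k y :=
  ⟨H.sm.add H'.sm, by rw [H.eq, H'.eq],
    by filter_upwards [H.space, H'.space] with y b1 b2 using add_le_add b1 b2,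
    fun η hη => by
      filter_upwards [H.time _ (half_pos hη), H'.time _ (half_pos hη)] with s b1 b2; linarith⟩

/-- composition with an increasing function -/
lemma Up.comp (H : Up E w t x d f) {θ : ℝ → ℝ} (hθ : Monotone θ) (h : ContDiffAt ℝ ∞ θ (w t x)) :
    Up E (fun s y => θ (w s y)) t x (deriv θ (w t x) * d) fun y => θ (f y) := by
  refine ⟨H.sm.comp (by rwa [H.eq]), by rw [H.eq], H.space.mono fun y b => hθ b, fun η hη => ?_⟩
  have h0 : 0 ≤ deriv θ (w t x) := hθ.deriv_nonneg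
  obtain ⟨ε, e0, e1⟩ : ∃ ε > 0, deriv θ (w t x) * ε ≤ η / 2 :=
    ⟨η / 2 / (deriv θ (w t x) + 1), by positivity, by
      rw [← mul_div_assoc, div_le_iff₀ (by positivity)]; nlinarith⟩
  have h1 : HasDerivAt (fun s => w t x + (d - ε) * (s - t)) (d - ε) t := by
    simpa using (((hasDerivAt_id t).sub_const t).const_mul (d - ε)).const_add (w t x)
  have h2 := (h.differentiableAt (by simp)).hasDerivAt.comp_of_eq t h1 (by simp)
  filter_upwards [H.time ε e0, mem_nhdsWithin_of_mem_nhds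
    (left_slope h2.neg.hasDerivWithinAt (half_pos hη)), self_mem_nhdsWithin] with s b1 b2 b3
  have b4 := b2 (le_of_lt b3)
  have b5 := hθ b1
  have b6 : s - t < 0 := sub_neg.2 b3
  simp only [Pi.neg_apply, Function.comp, sub_self, mul_zero, add_zero] at b4
  nlinarith

lemma Up.const_mul (H : Up E w t x d f) {a : ℝ} (ha : 0 ≤ a) :
    Up E (fun s y => a * w s y) t x (a * d) fun y => a * f y := by
  simpa using H.comp (θ := fun s => a * s) (fun _ _ h => mul_le_mul_of_nonneg_left h ha)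
    (by fun_prop)

variable [IsManifold 𝓘(ℝ, E) ∞ M]

lemma lap_nonneg (hg : Met g U) (hx : x ∈ U) (hf : SA E f x) (h : ∀ᶠ y in 𝓝 x, f x ≤ f y) :
    0 ≤ lap g f x :=
  lapG_nonneg (by rw [co_pt]; exact hg.pos x hx) (by rw [co_pt]; exact hg.symm x hx) hf
    (by simp only [rd_pt]; exact ev_rd h)

lemma gam_nonneg (hg : Met g U) (hx : x ∈ U) (f : M → ℝ) : 0 ≤ gam g f f x :=
  gamG_nonneg (by rw [co_pt]; exact hg.pos x hx) _

lemma vs_zero (hg : Met g U) (hx : x ∈ U) : Vs g (fun _ _ => 0) t x 0 := fun d f a1 a2 a3 => by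
  have h1 := lap_nonneg hg hx (f := fun y => -f y) a1.neg (a3.mono fun y b => by linarith)
  rw [lap_neg a1] at h1
  obtain ⟨s, b1, b2⟩ := (a2.and self_mem_nhdsWithin).exists
  have b3 : s < t := b2
  have : 0 ≤ d := by nlinarith
  linarith

/-- barriers are viscosity supersolutions -/
lemma Up.vs (H : Up E w t x d f) (hg : Met g U) (hx : x ∈ U) : Vs g w t x (d - lap g f x) := by
  simpa using (vs_zero hg hx).add_up H

/-- **The weak maximum principle**; `u` is nonnegative outside the compact set `T`. -/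
theorem wmp_on {g : ℝ → Ten E M} {a b K : ℝ} {T : Set (ℝ × M)} (hU : IsOpen U) (hT : IsCompact T)
    (hTS : T ⊆ Icc a b ×ˢ U) (hu : ContinuousOn (fun q : ℝ × M => u q.1 q.2) T)
    (h0 : ∀ t ∈ Icc a b, ∀ x ∈ U, (t, x) ∉ T → 0 ≤ u t x) (ha : ∀ x ∈ U, 0 ≤ u a x)
    (h : ∀ t ∈ Ioc a b, ∀ x ∈ U, (t, x) ∈ T → u t x < 0 → Vs (g t) u t x (K * u t x)) :
    ∀ t ∈ Icc a b, ∀ x ∈ U, 0 ≤ u t x := fun t ht x hx => by
  refine wmp (S := Icc a b ×ˢ U) (τ := Prod.fst) (K := K) hT hTS continuousOn_fst hu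
    (fun q hq => h0 _ hq.1 _ hq.2) (fun p hp h1 => ?_) (t, x) ⟨ht, hx⟩
  obtain ⟨h2, h3⟩ := hTS hp
  have h4 : a < p.1 := h2.1.lt_of_ne fun e => absurd (ha _ h3) (by rw [e]; exact not_le.2 h1)
  exact (h _ ⟨h4, h2.2⟩ _ h3 hp h1).ts
    (by filter_upwards [Ioo_mem_nhdsLT h4] with s hs using ⟨⟨hs.1.le, hs.2.le.trans h2.2⟩, h3⟩)
    (by filter_upwards [hU.mem_nhds h3] with y hy using ⟨h2, hy⟩)

/-- the weak maximum principle on a closed manifold -/
theorem wmp_cpt {g : ℝ → Ten E M} {a b K : ℝ} (hU : IsOpen U) (hc : IsCompact U)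
    (hu : ContinuousOn (fun q : ℝ × M => u q.1 q.2) (Icc a b ×ˢ U)) (ha : ∀ x ∈ U, 0 ≤ u a x)
    (h : ∀ t ∈ Ioc a b, ∀ x ∈ U, u t x < 0 → Vs (g t) u t x (K * u t x)) :
    ∀ t ∈ Icc a b, ∀ x ∈ U, 0 ≤ u t x :=
  wmp_on hU (isCompact_Icc.prod hc) subset_rfl hu (fun _ ht _ hx h => (h ⟨ht, hx⟩).elim) ha
    fun t ht x hx _ => h t ht x hx

/-- the weak maximum principle for smooth functions, with arbitrary first order terms -/
theorem wmp_smooth {g : ℝ → Ten E M} {u' : ℝ → M → ℝ} {a b K : ℝ} (hg : Fam g (Icc a b) U)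
    (hc : IsCompact U) (hu : ContinuousOn (fun q : ℝ × M => u q.1 q.2) (Icc a b ×ˢ U))
    (hs : ∀ t ∈ Ioc a b, ∀ x ∈ U, SA E (u t) x)
    (hd : ∀ t ∈ Ioc a b, ∀ x ∈ U, HasDerivWithinAt (fun s => u s x) (u' t x) (Icc a b) t)
    (ha : ∀ x ∈ U, 0 ≤ u a x)
    (h : ∀ t ∈ Ioc a b, ∀ x ∈ U, u t x < 0 → (∀ᶠ y in 𝓝 x, u t x ≤ u t y) →
      0 ≤ lap (g t) (u t) x → K * u t x ≤ u' t x) : ∀ t ∈ Icc a b, ∀ x ∈ U, 0 ≤ u t x := by
  intro t ht x hx
  refine wmp (S := Icc a b ×ˢ U) (τ := Prod.fst) (K := K) (isCompact_Icc.prod hc) subset_rfl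
    continuousOn_fst hu (fun q hq h1 => (h1 hq).elim) (fun p hp h1 e he => ?_) (t, x) ⟨ht, hx⟩
  obtain ⟨h2, h3⟩ := hp
  have h4 : a < p.1 := h2.1.lt_of_ne fun e => absurd (ha _ h3) (by rw [e]; exact not_le.2 h1)
  have h5 : p.1 ∈ Ioc a b := ⟨h4, h2.2⟩
  have a2 : Tendsto (fun y => (p.1, y)) (𝓝 p.2) (𝓝[Icc a b ×ˢ U] p) := tendsto_nhdsWithin_iff.2
    ⟨(Continuous.prodMk_right p.1).tendsto p.2,
      by filter_upwards [hg.isOpen.mem_nhds h3] with y hy using ⟨h2, hy⟩⟩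
  have h6 : ∀ᶠ y in 𝓝 p.2, u p.1 p.2 ≤ u p.1 y := by
    filter_upwards [a2.eventually he] with y b1; linarith [b1 le_rfl]
  have hI : Icc a b ∈ 𝓝[<] p.1 := mem_of_superset (Ioo_mem_nhdsLT h4)
    fun s hs => ⟨hs.1.le, hs.2.le.trans h2.2⟩
  have h7 := lap_nonneg (hg.met h2) h3 (hs _ h5 _ h3) h6
  have h8 := (up_smooth (E := E) (w := fun s (_ : M) => u s p.2) (x := p.2) hI (hd _ h5 _ h3)
    (sa_const _)).vs (hg.met h2) h3 e (fun _ => 0) (sa_const 0) (by
      have a1 : Tendsto (fun s => (s, p.2)) (𝓝[<] p.1) (𝓝[Icc a b ×ˢ U] p) :=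
        tendsto_nhdsWithin_iff.2
          ⟨((Continuous.prodMk_left p.2).tendsto p.1).mono_left nhdsWithin_le_nhds,
            by filter_upwards [hI] with s hs using ⟨hs, h3⟩⟩
      filter_upwards [a1.eventually he, self_mem_nhdsWithin] with s b1 b2 using b1 (le_of_lt b2))
    (Eventually.of_forall fun _ => le_rfl)
  simp only [lap_const, sub_zero] at h8
  exact (h _ h5 _ h3 h1 h6 h7).trans h8

end Vale.Agent.P216MP
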