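import Vale.Agent.P216MP.Rig
import Vale.Agent.P216K.Stm

/-! # The rigidity statements in the forms used by the other blocks -/

open Set

namespace Vale.Agent.P216MP

theorem s2K : P216K.S2 := fun _ _ _ _ _ _ _ h hb => s2_anc h hb

theorem s4K : P216K.S4 := fun _ _ _ _ _ _ _ _ hτ hg _ hs hu h _ hx =>
  s4 (hg.mono_time Ioc_subset_Icc_self) (fun t ht => hs t (Ioc_subset_Icc_self ht))
    (neg_lt_zero.2 hτ) hu h hx

end Vale.Agent.P216MP
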