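import Mathlib.Analysis.Calculus.Deriv.MeanValue
import Mathlib.Analysis.Calculus.LocalExtr.Basic
import Mathlib.Analysis.SpecialFunctions.Log.Deriv
import Mathlib.Topology.Order.Compact

/-! # Real variable lemmas for maximum principles -/

open Set Filter Topology

namespace Vale.Agent.P216MP

/-- **The first time at which a continuous function is not positive.** -/
theorem exists_first {X : Type*} [TopologicalSpace X] {S : Set X} (hS : IsCompact S)
    {τ u : X → ℝ} (hτ : ContinuousOn τ S) (hu : ContinuousOn u S) (h : ∃ p ∈ S, u p ≤ 0) :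
    ∃ p ∈ S, u p ≤ 0 ∧ (∀ q ∈ S, τ q < τ p → 0 < u q) ∧ ∀ q ∈ S, τ q ≤ τ p → u p ≤ u q := by
  have := isCompact_iff_compactSpace.1 hS
  have c1 : Continuous fun q : S => τ q := hτ.domRestrict
  have c2 : Continuous fun q : S => u q := hu.domRestrict
  obtain ⟨p0, hp0, h0⟩ := h
  have k1 : IsClosed {q : S | u q ≤ 0} := isClosed_le c2 continuous_const
  obtain ⟨p1, h1, h2⟩ := k1.isCompact.exists_isMinOn ⟨⟨p0, hp0⟩, h0⟩ c1.continuousOn
  have k2 : IsClosed ({q : S | u q ≤ 0} ∩ {q : S | τ q = τ p1}) :=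
    k1.inter (isClosed_eq c1 continuous_const)
  obtain ⟨p, h3, h4⟩ := k2.isCompact.exists_isMinOn ⟨p1, h1, rfl⟩ c2.continuousOn
  have h5 : τ p = τ p1 := h3.2
  have h6 : ∀ q ∈ S, τ q < τ p → 0 < u q := fun q hq hlt => by
    by_contra h7
    have : τ p1 ≤ τ q := h2 (a := ⟨q, hq⟩) (not_lt.1 h7)
    linarith
  refine ⟨p, p.2, h3.1, h6, fun q hq hle => ?_⟩
  rcases hle.eq_or_lt with h7 | h7
  · rcases le_total (u q) 0 with h8 | h8
    · exact h4 (a := ⟨q, hq⟩) ⟨h8, h7.trans h5⟩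
    · exact le_trans h3.1 h8
  · exact le_trans h3.1 (h6 q hq h7).le

/-- a function which is not smaller on the left has nonpositive derivative -/
lemma deriv_nonpos_of_left {f : ℝ → ℝ} {d t : ℝ} (hf : HasDerivWithinAt f d (Iic t) t)
    (h : ∀ᶠ s in 𝓝[<] t, f t ≤ f s) : d ≤ 0 := by
  have h1 := hasDerivWithinAt_iff_tendsto_slope' (x := t) (s := Iio t) (by simp) |>.1
    (hf.mono Iio_subset_Iic_self)
  refine le_of_tendsto h1 ?_
  filter_upwards [h, self_mem_nhdsWithin] with s hs hlt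
  rw [slope_def_field]
  exact div_nonpos_of_nonneg_of_nonpos (by linarith) (by linarith [show s < t from hlt])

lemma deriv_nonpos_of_left' {f : ℝ → ℝ} {d t : ℝ} (hf : HasDerivAt f d t)
    (h : ∀ᶠ s in 𝓝[<] t, f t ≤ f s) : d ≤ 0 := deriv_nonpos_of_left hf.hasDerivWithinAt h

/-- the second derivative test -/
lemma second_nonneg {f f1 : ℝ → ℝ} {d t : ℝ} (hf : ∀ᶠ s in 𝓝 t, HasDerivAt f (f1 s) s)
    (h1 : HasDerivAt f1 d t) (h : ∀ᶠ s in 𝓝 t, f t ≤ f s) : f1 t = 0 ∧ 0 ≤ d := by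
  have h0 : f1 t = 0 := IsLocalMin.hasDerivAt_eq_zero h hf.self_of_nhds
  refine ⟨h0, ?_⟩
  by_contra hd
  have h2 := (hasDerivAt_iff_tendsto_slope_left_right.1 h1).2
  have h3 : ∀ᶠ s in 𝓝[>] t, f1 s < 0 := by
    filter_upwards [h2.eventually (gt_mem_nhds (not_le.1 hd)), self_mem_nhdsWithin] with s hs hlt
    rw [slope_def_field, h0, sub_zero] at hs
    have h4 : 0 < s - t := sub_pos.2 hlt
    by_contra h5
    exact absurd hs (not_lt.2 (div_nonneg (not_lt.1 h5) h4.le))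
  obtain ⟨b, hb, h4⟩ := mem_nhdsGT_iff_exists_Ioc_subset.1
    (h3.and (mem_nhdsWithin_of_mem_nhds (hf.and h)))
  have h5 : ∀ s ∈ Icc t b, HasDerivAt f (f1 s) s := fun s hs => by
    rcases hs.1.eq_or_lt with rfl | h6
    · exact hf.self_of_nhds
    · exact (h4 ⟨h6, hs.2⟩).2.1
  obtain ⟨c, hc, h6⟩ := exists_hasDerivAt_eq_slope f f1 hb
    (fun s hs => (h5 s hs).continuousAt.continuousWithinAt)
    fun s hs => h5 s (Ioo_subset_Icc_self hs)
  have h7 := (h4 ⟨hc.1, hc.2.le⟩).1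
  have h8 := (h4 ⟨hb, le_rfl⟩).2.2
  rw [h6] at h7
  exact absurd h7 (not_lt.2 (div_nonneg (by linarith) (sub_pos.2 hb).le))

/-- a negative function on the zero set of `G` is dominated by a multiple of `G` -/
lemma exists_lt_mul {X : Type*} [TopologicalSpace X] {S : Set X} (hS : IsCompact S)
    {F G : X → ℝ} (hF : ContinuousOn F S) (hG : ContinuousOn G S) (h0 : ∀ p ∈ S, 0 ≤ G p)
    (h : ∀ p ∈ S, G p = 0 → F p < 0) : ∃ A : ℝ, 0 ≤ A ∧ ∀ p ∈ S, F p < A * G p := by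
  refine hS.induction_on (p := fun T => ∃ A : ℝ, 0 ≤ A ∧ ∀ p ∈ T, p ∈ S → F p < A * G p)
    ⟨0, le_rfl, by simp⟩ ?_ ?_ ?_ |>.imp fun A hA => ⟨hA.1, fun p hp => hA.2 p hp hp⟩
  · rintro s t hst ⟨A, h1, h2⟩
    exact ⟨A, h1, fun p hp => h2 p (hst hp)⟩
  · rintro s t ⟨A, h1, h2⟩ ⟨B, h3, h4⟩
    refine ⟨max A B, le_max_of_le_left h1, ?_⟩
    rintro p (hp | hp) hp'
    · exact (h2 p hp hp').trans_le (mul_le_mul_of_nonneg_right (le_max_left _ _) (h0 p hp'))
    · exact (h4 p hp hp').trans_le (mul_le_mul_of_nonneg_right (le_max_right _ _) (h0 p hp'))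
  · intro p hp
    obtain ⟨A, h1, h2⟩ : ∃ A : ℝ, 0 ≤ A ∧ F p < A * G p := by
      rcases (h0 p hp).eq_or_lt with h1 | h1
      · exact ⟨0, le_rfl, by simpa using h p hp h1.symm⟩
      · refine ⟨(|F p| + 1) / G p, by positivity, ?_⟩
        rw [div_mul_cancel₀ _ h1.ne']
        linarith [le_abs_self (F p)]
    exact ⟨_, (hF p hp).eventually_lt (continuousWithinAt_const.mul (hG p hp)) h2, A, h1,
      fun q hq _ => hq⟩

/-! ### the algebra of the Hamilton-Ivey estimate -/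

/-- `s`, `q` are the sum and the product of two numbers which are at least `-X` -/
lemma ivey_alg {X s q : ℝ} (hX : 0 ≤ X) (h1 : 4 * q ≤ s ^ 2) (h2 : 0 ≤ s + 2 * X)
    (h3 : 0 ≤ q + X * s + X ^ 2) : 0 ≤ X * (s ^ 2 - q) + s * q := by
  rcases le_total X s with h | h
  · nlinarith [mul_nonneg (sub_nonneg.2 h) h3, pow_nonneg hX 3]
  · nlinarith [mul_nonneg (sub_nonneg.2 h) (sub_nonneg.2 h1),
      mul_nonneg (sq_nonneg s) (show 0 ≤ s + 3 * X by linarith)]

/-- the function in the Hamilton-Ivey estimate -/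
noncomputable def ivey (X τ : ℝ) : ℝ := X * (Real.log (X * τ) - 3)

/-- convexity -/
lemma ivey_tangent {X Y τ : ℝ} (hX : 0 < X) (hY : 0 < Y) (hτ : 0 < τ) :
    ivey X τ + (Real.log (X * τ) - 2) * (Y - X) ≤ ivey Y τ := by
  have h1 := Real.log_le_sub_one_of_pos (div_pos hX hY)
  rw [Real.log_div hX.ne' hY.ne'] at h1
  have h2 : Y * (Real.log X - Real.log Y) ≤ X - Y := by
    have := mul_le_mul_of_nonneg_left h1 hY.le
    rwa [mul_sub Y (X / Y), mul_div_cancel₀ _ hY.ne', mul_one] at this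
  unfold ivey
  rw [Real.log_mul hX.ne' hτ.ne', Real.log_mul hY.ne' hτ.ne']
  nlinarith

lemma ivey_mono {X τ τ' : ℝ} (hX : 0 < X) (hτ : 0 < τ) (h : τ ≤ τ') : ivey X τ ≤ ivey X τ' :=
  mul_le_mul_of_nonneg_left
    (sub_le_sub_right (Real.log_le_log (by positivity) (by gcongr)) _) hX.le

/-- for small `X τ` the estimate follows from the trivial bounds -/
lemma ivey_small {X τ R : ℝ} (hX : 0 < X) (hτ : 0 < τ) (h : Real.log (X * τ) ≤ 2)
    (h1 : -3 * X ≤ R) (h2 : -3 / τ ≤ R) : ivey X τ ≤ R := by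
  rcases le_total (Real.log (X * τ)) 0 with h3 | h3
  · unfold ivey; nlinarith
  · have h4 : 1 ≤ X * τ := by
      by_contra h5
      exact absurd (Real.log_neg (by positivity) (not_le.1 h5)) (not_lt.2 h3)
    have h5 := ivey_tangent hX (inv_pos.2 hτ) hτ
    have h6 : ivey τ⁻¹ τ = -3 / τ := by
      unfold ivey
      rw [inv_mul_cancel₀ hτ.ne', Real.log_one]
      ring
    have h7 : τ⁻¹ ≤ X := by
      rw [inv_le_iff_one_le_mul₀ hτ]; exact h4
    nlinarith [mul_nonneg (sub_nonneg.2 h) (sub_nonneg.2 h7)]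

end Vale.Agent.P216MP
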