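import Vale.Agent.P216D.Heat

/-! # Curvature operators of rank at most one: the identities behind the splitting -/

namespace Vale.Agent.P216MP

open P216D P216D.Fr P216D.Fl

variable {A : Type*} [CommRing A] [Algebra ℝ A]

lemma two_cancel {x y : A} (h : 2 * x = 2 * y) : x = y := by
  have : ∀ z : A, z = (1 / 2 : ℝ) • (2 * z) := fun z => by
    rw [two_mul, ← two_smul ℝ z, smul_smul]; norm_num
  rw [this x, h, ← this y]

/-- `M² = S M` -/
def Rk1 (c : Fr A) : Prop := ∀ a b, ∑ k, c.M a k * c.M k b = c.S * c.M a b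

/-- `M / S` is parallel -/
def Par (c : Fr A) : Prop := ∀ d a b, c.S * c.D d (c.M a b) = c.D d c.S * c.M a b

section static

variable {c : Fr A} {f u : A}

lemma Rk1.N0 (h : Rk1 c) : c.N0 = c.S ^ 2 := by
  have h0 := h 0 0
  have h1 := h 1 1
  have h2 := h 2 2
  simp only [Fr.N0, Fin.sum_univ_three, c.M10, c.M20, c.M21, S] at *
  linear_combination h0 + h1 + h2

lemma Rk1.Q (h : Rk1 c) (a b : Fin 3) : c.Q a b = 2 * c.S * c.M a b := by
  rw [Fr.Q, h, h.N0, sub_self, smul_zero]; ring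

lemma Rk1.rsq (h : Rk1 c) : c.rsq = 2 * c.S ^ 2 := by rw [rsq_eq, h.N0]; ring

lemma Rk1.ric_sq (h : Rk1 c) (a b : Fin 3) :
    ∑ k, c.Ric a k * c.Ric k b = c.S * c.Ric a b := by
  have := h a b
  revert a b
  refine all3 (all3 ?_ ?_ ?_) (all3 ?_ ?_ ?_) (all3 ?_ ?_ ?_) <;>
  · simp only [Ric, Fin.sum_univ_three, eps_nf, zs_nf]
    intro h
    linear_combination h

lemma Rk1.ric_grad (h : Rk1 c) (f : A) :
    ∑ a, (∑ b, c.Ric a b * c.D b f) ^ 2 = c.S * c.rip f f := by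
  have h0 := h.ric_sq
  have h1 := h0 0 0
  have h2 := h0 0 1
  have h3 := h0 0 2
  have h4 := h0 1 1
  have h5 := h0 1 2
  have h6 := h0 2 2
  simp only [rip, Fin.sum_univ_three, c.Ric_symm 1 0, c.Ric_symm 2 0, c.Ric_symm 2 1] at *
  linear_combination c.D 0 f ^ 2 * h1 + 2 * c.D 0 f * c.D 1 f * h2 + 2 * c.D 0 f * c.D 2 f * h3 +
    c.D 1 f ^ 2 * h4 + 2 * c.D 1 f * c.D 2 f * h5 + c.D 2 f ^ 2 * h6

lemma Par.ric (h : Par c) (d a b : Fin 3) :
    c.S * c.D d (c.Ric a b) = c.D d c.S * c.Ric a b := by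
  rw [Ric, map_sub, map_zsmul, mul_sub, h, mul_sub, mul_smul_comm, mul_smul_comm, mul_comm c.S]

lemma Par.lap (h : Par c) (a b : Fin 3) : c.S * c.Lap (c.M a b) = c.Lap c.S * c.M a b := by
  have h1 := fun d => congrArg (c.D d) (h d a b)
  simp only [der_mul] at h1
  simp only [Lap, Fin.sum_univ_three]
  linear_combination h1 0 + h1 1 + h1 2

lemma Par.div (h : Par c) (b : Fin 3) : ∑ a, c.D a c.S * c.M a b = 0 := by
  rw [← Finset.sum_congr rfl fun a _ => h a a b, ← Finset.mul_sum, c.bianchi, mul_zero]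

/-- a unit field in the kernel of the Ricci tensor determines the curvature -/
lemma Rk1.eq_sq (h : Rk1 c) {β : Fin 3 → A} (h0 : ∑ a, ∑ b, c.Ric a b * (β a * β b) = 0)
    (h1 : ∑ a, β a ^ 2 = 1) : ∑ a, ∑ b, (c.M a b - c.S * (β a * β b)) ^ 2 = 0 := by
  have h2 := h.N0
  simp only [Fr.N0, Ric, Fin.sum_univ_three, eps_nf, zs_nf] at *
  linear_combination h2 + 2 * c.S * h0 +
    c.S ^ 2 * (β 0 ^ 2 + β 1 ^ 2 + β 2 ^ 2 - 1) * h1

lemma Par.unit (h : Par c) {β : Fin 3 → A} (h0 : ∀ a b, c.M a b = c.S * (β a * β b))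
    (h1 : ∑ a, β a ^ 2 = 1) (d a : Fin 3) : c.S ^ 2 * c.D d (β a) = 0 := by
  have h2 := fun b => congrArg (c.D d) (h0 a b)
  have h3 := congrArg (c.D d) h1
  have h4 := h d a
  simp only [Fin.sum_univ_three, der_nf] at h1 h2 h3
  have h5 : β 0 * c.D d (β 0) + β 1 * c.D d (β 1) + β 2 * c.D d (β 2) = 0 :=
    two_cancel (by linear_combination h3)
  linear_combination β 0 * (h4 0 - c.S * h2 0 + c.D d c.S * h0 a 0) +
    β 1 * (h4 1 - c.S * h2 1 + c.D d c.S * h0 a 1) +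
    β 2 * (h4 2 - c.S * h2 2 + c.D d c.S * h0 a 2) - c.S ^ 2 * β a * h5 -
    c.S ^ 2 * c.D d (β a) * h1

/-- functions whose Hessian is a constant multiple of the metric -/
lemma ric_grad_eq_zero (hf : c.Inv f) {r : ℝ}
    (h : ∀ a b, c.D a (c.D b f) = dl a b • algebraMap ℝ A r) (a : Fin 3) :
    ∑ b, c.Ric a b * c.D b f = 0 := by
  have h1 := hf.Lap_D a
  simp only [Lap, h, map_sum, map_zsmul, der_alg, smul_zero, Finset.sum_const_zero] at h1
  linear_combination -h1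

/-- a cone direction is not parallel -/
lemma cone_false (h : ∀ a b, c.D a (c.D b u) = dl a b • (1 : A)) (k : ∀ a b, c.D a (c.D b f) = 0)
    (h1 : c.ip f f = 1) (h2 : ∀ a, c.D a u = c.ip u f * c.D a f) : (2 : A) = 0 := by
  have h3 := fun a => congrArg (c.D a) (h2 a)
  simp only [ip, Fin.sum_univ_three, der_nf, h, k] at h1 h3
  have h4 := h3 0
  have h5 := h3 1
  have h6 := h3 2
  simp only [eps_nf, zs_nf] at h4 h5 h6
  linear_combination h4 + h5 + h6 + h1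

end static

variable {c : RF A} {f : A}

lemma Rk1.par_sq (h : Rk1 c.toFr) :
    ∑ d, ∑ a, ∑ b, (c.S * c.D d (c.M a b) - c.D d c.S * c.M a b) ^ 2 = 0 := by
  have h1 := congrArg c.H h.N0
  have h2 := fun d => congrArg (c.D d) h.N0
  have h3 := h.N0
  simp only [Fr.N0, H_sum, H_sq, c.H_M, c.H_S, h.Q, h.rsq] at h1
  simp only [Fr.N0, ip, Fin.sum_univ_three, der_nf] at h1 h2 h3
  simp only [Fin.sum_univ_three]
  refine two_cancel ?_
  linear_combination -c.S ^ 2 * h1 - 2 * c.S * (c.D 0 c.S * h2 0 + c.D 1 c.S * h2 1 +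
    c.D 2 c.S * h2 2) + (4 * c.S ^ 3 + 2 * (c.D 0 c.S ^ 2 + c.D 1 c.S ^ 2 + c.D 2 c.S ^ 2)) * h3

lemma Rk1.dt (h : Rk1 c.toFr) (k : Par c.toFr) (a b : Fin 3) :
    c.S * c.Dt (c.M a b) = c.Dt c.S * c.M a b := by
  have h1 := c.H_M a b
  rw [H, h.Q] at h1
  rw [c.Dt_S, h.rsq]
  linear_combination k.lap a b + c.S * h1

lemma Rk1.dt_ric (h : Rk1 c.toFr) (k : Par c.toFr) (a b : Fin 3) :
    c.S * c.Dt (c.Ric a b) = c.Dt c.S * c.Ric a b := by
  rw [Ric, map_sub, map_zsmul, mul_sub, h.dt k, mul_sub, mul_smul_comm, mul_smul_comm, mul_comm c.S]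

lemma Rk1.dt_rip (h : Rk1 c.toFr) (k : Par c.toFr) (hf : c.Inv f) (ht : c.Dt f = 0) :
    c.S * c.Dt (c.rip f f) = (c.Dt c.S + 2 * c.S ^ 2) * c.rip f f := by
  have h1 := h.ric_grad f
  have h2 := h.dt_ric k
  simp only [rip, Fin.sum_univ_three, der_nf, Dt_D hf, ht, c.ric, c.Ric_symm 1 0, c.Ric_symm 2 0,
    c.Ric_symm 2 1] at h1 ⊢
  linear_combination c.D 0 f ^ 2 * h2 0 0 + c.D 1 f ^ 2 * h2 1 1 + c.D 2 f ^ 2 * h2 2 2 +
    2 * c.D 0 f * c.D 1 f * h2 0 1 + 2 * c.D 0 f * c.D 2 f * h2 0 2 +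
    2 * c.D 1 f * c.D 2 f * h2 1 2 + 2 * c.S * h1

end Vale.Agent.P216MP
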