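import Vale.Agent.P216MP.VsF
import Vale.Agent.P216LC.Nmp
import Vale.Agent.P216R.Surg
import Vale.Agent.P216SG.Soft
import Vale.Agent.P216BG.Seg
import Vale.Agent.P216FA.Glob

/-! # No surgery for a short time -/

open Set Filter Topology
open scoped ContDiff Manifold

set_option maxSynthPendingDepth 3

noncomputable section

namespace Vale.Agent.P216MP

open P216R P216BF P216LC P216SG

variable {M : Type} [TopologicalSpace M] [ChartedSpace E3 M] [IsManifold 𝓘(ℝ, E3) ∞ M]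
  {U : Set M} {a b τ : ℝ}

lemma rq_le_of_rmB {g : Ten E3 M} {x : M} {C : ℝ} (hg : Met g U) (hx : x ∈ U) (h : RmB g 0 x C) :
    rq g x ≤ 36 * C ^ 2 := by
  obtain ⟨h1, h2⟩ := ric_of_rmB3 finrank_E3 hg hx h
  have hf := P216D.fr0_on (hg.symm x hx) (hg.pos x hx)
  set e := P216D.fr0 (g x)
  have key : ∀ i j, Ric g x (e i) (e j) ^ 2 ≤ (2 * C) ^ 2 := fun i j => by
    have a1 := h1 (e i + e j)
    have a2 := h1 (e i - e j)
    have a3 := h2 (e i + e j)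
    have a4 := h2 (e i - e j)
    have a5 : g x (e i) (e i) = 1 := (on_onb hf).self i
    have a6 : g x (e j) (e j) = 1 := (on_onb hf).self j
    simp only [map_add, map_sub, add_apply, sub_apply, ric_symm hg hx (e j) (e i), a5, a6] at *
    exact sq_le_sq' (by linarith) (by linarith)
  rw [rq]
  simp only [Fin.sum_univ_three]
  linarith [key 0 0, key 0 1, key 0 2, key 1 0, key 1 1, key 1 2, key 2 0, key 2 1, key 2 2]

/-- upper bounds for the scalar curvature of pinched flows on closed manifolds -/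
theorem rf_sc_le {g : ℝ → Ten E3 M} (h : P216R.RF g (Icc a b) U) (hU : IsCompact U) (hτ : 0 < τ)
    (hp : ∀ t ∈ Icc a b, ∀ x ∈ U, PinchAt (g t) x τ) {φ φ' : ℝ → ℝ}
    (hφ : ∀ t ∈ Icc a b, HasDerivWithinAt φ (φ' t) (Icc a b) t)
    (h1 : ∀ t ∈ Icc a b, 450 * φ t ^ 2 ≤ φ' t) (h2 : ∀ t ∈ Icc a b, Real.exp 4 / τ ≤ φ t)
    (ha : ∀ x ∈ U, Sc (g a) x ≤ φ a) : ∀ t ∈ Icc a b, ∀ x ∈ U, Sc (g t) x ≤ φ t := by
  intro t ht x hx
  obtain ⟨B, hB⟩ := (isCompact_Icc.prod hU).bddAbove_image (sc_cont h.toFam)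
  have := wmp_cpt (g := g) (u := fun s y => -1 * (Sc (g s) y - φ s)) (K := 900 * B) h.isOpen hU
    (continuousOn_const.mul ((sc_cont h.toFam).sub (ContinuousOn.comp (g := φ)
      (fun t ht => (hφ t ht).continuousWithinAt) continuousOn_fst fun _ hq => hq.1)))
    (fun y hy => by linarith [ha y hy]) (fun s hs y hy hn => ?_) t ht x hx
  · linarith
  have hs' := Ioc_subset_Icc_self hs
  refine (up_sc h hs hy (-1) (hφ s hs')).mono ?_
  have k0 : 0 < φ s := lt_of_lt_of_le (by positivity) (h2 s hs')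
  have k1 : φ s < Sc (g s) y := by linarith
  have k2 := (hp s hs' y hy).secGe (h.met hs') hy hτ one_pos
  rw [max_eq_left (by norm_num; linarith [h2 s hs']), one_mul] at k2
  have k3 := rq_le_of_rmB (h.met hs') hy
    (rmB3 finrank_E3 (h.met hs') hy (by linarith) (by linarith) k2 le_rfl)
  have k4 : Sc (g s) y ≤ B := hB ⟨(s, y), ⟨hs', hy⟩, rfl⟩
  nlinarith [h1 s hs', mul_le_mul_of_nonneg_right (show Sc (g s) y + φ s ≤ 2 * B by linarith)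
    (sub_nonneg.2 k1.le)]

/-- **EARLY**: the curvature stays bounded, and there is no surgery, for a definite time -/
theorem early {N : Type} [TopologicalSpace N] [ChartedSpace E3 N] [IsManifold 𝓘(ℝ, E3) ∞ N]
    {U₀ : Set N} {g₀ : Ten E3 N} (hg : Met g₀ U₀) (hc : IsCompact U₀) :
    ∃ τ₀ > 0, ∃ K₀ > 0, ∀ (M : Type) [TopologicalSpace M] [ChartedSpace E3 M]
      [IsManifold 𝓘(ℝ, E3) ∞ M] (g : ℝ → Ten E3 M) (b d : M → ℝ) (T : ℝ), SF g b d 0 T →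
      Copy g₀ U₀ (g 0) (postS b d 0) →
      (∀ s ∈ Ioo 0 T, preS b d s = postS b d s ∨ ∃ x ∈ preS b d s, K₀ < Sc (g s) x) →
      (∀ W s, Sl b d 0 T W s → s ≤ τ₀ → ∀ x ∈ W, Sc (g s) x ≤ K₀) ∧
        ∀ s ∈ Ioo 0 T, s ≤ τ₀ → preS b d s = postS b d s := by
  obtain ⟨C, C0, hC⟩ := P216BG.exists_rmB hg hc Subset.rfl 0
  obtain ⟨τ, hτ, hτ'⟩ : ∃ τ > 0, 2 * C * τ ≤ 1 := ⟨(2 * C + 1)⁻¹, by positivity, by
    rw [← div_eq_mul_inv, div_le_one (by positivity)]; linarith⟩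
  obtain ⟨c, hc0, c1, c2⟩ : ∃ c > 0, Real.exp 4 / τ ≤ c ∧ 6 * C ≤ c :=
    ⟨max (Real.exp 4 / τ) (6 * C), lt_max_of_lt_left (by positivity), le_max_left _ _,
      le_max_right _ _⟩
  refine ⟨1 / (900 * c), by positivity, 2 * c, by positivity, fun M _ _ _ g b d T F hj hs => ?_⟩
  set φ : ℝ → ℝ := fun s => c / (1 - 450 * c * s)
  have p1 : ∀ s ≤ 1 / (900 * c), 1 / 2 ≤ 1 - 450 * c * s := fun s h => by
    rw [le_div_iff₀ (by positivity)] at h; linarith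
  have p2 : ∀ s ≤ 1 / (900 * c), φ s ≤ 2 * c := fun s h => by
    rw [div_le_iff₀ (by linarith [p1 s h])]; nlinarith [p1 s h]
  have p3 : ∀ s ≤ 1 / (900 * c), 0 ≤ s → c ≤ φ s := fun s h h0 => by
    rw [le_div_iff₀ (by linarith [p1 s h])]; nlinarith [mul_nonneg hc0.le h0]
  have q : ∀ s ∈ Ioo 0 T, (∀ x ∈ preS b d s, Sc (g s) x ≤ 2 * c) → preS b d s = postS b d s :=
    fun s h1 h2 => (hs s h1).resolve_right fun ⟨x, hx, h3⟩ => h3.not_ge (h2 x hx)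
  have key := F.ind
    (P := fun s => s ≤ 1 / (900 * c) → ∀ x ∈ preS b d s, PinchAt (g s) x τ ∧ Sc (g s) x ≤ φ s)
    (Q := fun s => s ≤ 1 / (900 * c) → ∀ x ∈ postS b d s, PinchAt (g s) x τ ∧ Sc (g s) x ≤ φ s)
    (fun h0 x hx => ?_) (fun s t h0 hst hT hG hQ ht x hx => ?_) fun t ht hP h0 => ?_
  · have k : ∀ W s, Sl b d 0 T W s → s ≤ 1 / (900 * c) → ∀ x ∈ W, Sc (g s) x ≤ 2 * c := by
      rintro W s (⟨h1, rfl⟩ | ⟨h1, rfl⟩) h2 x hx
      exacts [(key.1 s h1 h2 x hx).2.trans (p2 s h2), (key.2 s h1 h2 x hx).2.trans (p2 s h2)]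
    exact ⟨k, fun s h1 h2 => q s h1 (k _ s (sl_pre (Ioo_subset_Ioc_self h1)) h2)⟩
  · have hm := F.met (sl_post ⟨le_rfl, F.lt⟩)
    obtain ⟨j, h1, -, e, h4⟩ := hj
    obtain ⟨y, hy, rfl⟩ := e.symm.subset hx
    have H : LI g₀ (g 0) j y := ⟨⟨_, hm, hx⟩, ⟨_, h1, hy⟩,
      (h4.eventuallyEq_of_mem (h1.isOpen.mem_nhds hy)).symm⟩
    refine ⟨pinchAt_of_secGe hm hx hτ ((H.SecGe _).1 (secGe_of_rmB hg hy (hC y hy))) hτ', ?_⟩
    rw [← H.Sc]
    exact ((abs_le.1 (abs_sc_le3 finrank_E3 hg hy (hC y hy))).2.trans c2).trans (p3 0 h0 le_rfl)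
  · have R := F.rf s t hst hT
    have K := F.isCompact_liv hst hT hG
    have hQ' := hQ (hst.le.trans ht)
    rw [hG.postS_eq ⟨le_rfl, hst⟩] at hQ'
    rw [hG.preS_eq ⟨hst, le_rfl⟩] at hx
    have P : ∀ u ∈ Icc s t, ∀ y ∈ Liv b d s t, PinchAt (g u) y τ := fun u hu y hy =>
      Pinch.mono (rf_pinch R K hτ (fun z hz => (hQ' z hz).1) u hu y hy) hτ (by linarith [hu.1])
    refine ⟨P t ⟨hst.le, le_rfl⟩ x hx, rf_sc_le R K hτ P (φ' := fun u => 450 * φ u ^ 2)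
      (fun u hu => ?_) (fun _ _ => le_rfl)
      (fun u hu => c1.trans (p3 u (hu.2.trans ht) (h0.trans hu.1))) (fun z hz => (hQ' z hz).2) t
      ⟨hst.le, le_rfl⟩ x hx⟩
    have h5 : 1 - 450 * c * u ≠ 0 := by linarith [p1 u (hu.2.trans ht)]
    refine (((hasDerivAt_const u c).fun_div (((hasDerivAt_id' u).const_mul (450 * c)).const_sub 1)
      h5).congr_deriv ?_).hasDerivWithinAt
    simp only [φ]
    field_simp
    ring
  · rw [← q t ht fun x hx => (hP h0 x hx).2.trans (p2 t h0)]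
    exact hP h0

/-- a surgery of scale `h` happens only if the curvature reaches `1 / (2 h ^ 2)` -/
theorem surg_high : ∃ δ₀ > 0, ∀ (M : Type) [TopologicalSpace M] [ChartedSpace E3 M]
    [IsManifold 𝓘(ℝ, E3) ∞ M] [MeasurableSpace M] (g : ℝ → Ten E3 M) (b : M → ℝ)
    (t ε lo hi h δ K : ℝ) (U U' : Set M), Met (g t) U → δ ≤ δ₀ → 2 * K * h ^ 2 ≤ 1 →
    Surg ε lo hi h δ M g b t U U' → ∃ x ∈ U, K < Sc (g t) x := by
  obtain ⟨δ₀, h0, H⟩ := exists_nf (η := 1 / 4) (by norm_num)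
  refine ⟨δ₀, h0, fun M _ _ _ _ g b t ε lo hi h δ K U U' hg hδ hK ⟨φ, ψ, V, k, ⟨y, hy, _⟩, _⟩ => ?_⟩
  have h1 := (abs_le.1 (H M _ U y h δ hg ⟨φ, k.neck, hy⟩ hδ).sc).1
  obtain ⟨u, hu, rfl⟩ := hy
  refine ⟨_, k.neck.emb.mem (sphere_sub_anl (inv_pos.2 k.neck.dpos) hu), ?_⟩
  exact lt_of_mul_lt_mul_left (a := h ^ 2) (by linarith) (sq_nonneg h)

/-- **EARLY** for the flows with surgery of `P216R.Surg` -/
theorem early_surg {N : Type} [TopologicalSpace N] [ChartedSpace E3 N] [IsManifold 𝓘(ℝ, E3) ∞ N]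
    {U₀ : Set N} {g₀ : Ten E3 N} (hg : Met g₀ U₀) (hc : IsCompact U₀) :
    ∃ τ₀ > 0, ∃ K₀ > 0, ∃ δ₀ > 0, ∀ (C : Cls) (M : Type) [TopologicalSpace M] [ChartedSpace E3 M]
      [IsManifold 𝓘(ℝ, E3) ∞ M] [MeasurableSpace M] (g : ℝ → Ten E3 M) (b d : M → ℝ)
      (T ε lo hi h δ : ℝ), δ ≤ δ₀ → 2 * K₀ * h ^ 2 ≤ 1 → SG C (Surg ε lo hi h δ) g₀ U₀ g b d T →
      (∀ W s, Sl b d 0 T W s → s ≤ τ₀ → ∀ x ∈ W, Sc (g s) x ≤ K₀) ∧
        ∀ s ∈ Ioo 0 T, s ≤ τ₀ → preS b d s = postS b d s := by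
  obtain ⟨τ₀, h1, K₀, h2, H⟩ := early hg hc
  obtain ⟨δ₀, h3, H'⟩ := surg_high
  exact ⟨τ₀, h1, K₀, h2, δ₀, h3, fun C M _ _ _ _ g b d T ε lo hi h δ k1 k2 S =>
    H M g b d T S.sf S.init fun s hs => (S.sg s hs).imp_right fun k =>
      H' M g b s ε lo hi h δ K₀ _ _ (S.sf.met (sl_pre (Ioo_subset_Ioc_self hs))) k1 k2 k⟩

theorem earlyFA : P216FA.EARLY := fun _ _ _ hg hc _ => by
  obtain ⟨τ₀, h1, K₀, -, H⟩ := early hg hc
  exact ⟨τ₀, h1, K₀, fun X g b d T F k1 k2 => (H X.M g b d T F k1 k2).1⟩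

end Vale.Agent.P216MP
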