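import Vale.Agent.P216MP.SmpM
import Mathlib.Analysis.Calculus.FDeriv.Symmetric

/-! # Polynomial test functions suffice -/

open Set Filter Topology Metric
open scoped ContDiff Manifold

set_option maxSynthPendingDepth 3
set_option linter.unusedSectionVars false

noncomputable section

namespace Vale.Agent.P216MP

open P216R P219.RG
open P210.R2.H53 (gradG gamG hessG lapG)

variable {E : Type} [NormedAddCommGroup E] [InnerProductSpace ℝ E]

/-- the quadratic polynomial with a given jet at `y` -/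
def qp (l : E →L[ℝ] ℝ) (B : Bil E) (y z : E) : ℝ := l (z - y) + 1 / 2 * B (z - y) (z - y)

lemma contDiff_qp (l : E →L[ℝ] ℝ) (B : Bil E) (y : E) : ContDiff ℝ ∞ (qp l B y) := by
  unfold qp; fun_prop

lemma has_qp (l : E →L[ℝ] ℝ) {B : Bil E} (hB : ∀ v w, B v w = B w v) (y z : E) :
    HasFDerivAt (qp l B y) (l + B (z - y)) z := by
  have h0 := (hasFDerivAt_id (𝕜 := ℝ) z).sub_const y
  refine ((l.hasFDerivAt.comp z h0).add
    (((B.hasFDerivAt.comp z h0).clm_apply h0).const_mul (1 / 2))).congr_fderiv ?_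
  ext v
  simp [hB v]
  ring

lemma fderiv2_qp (l : E →L[ℝ] ℝ) {B : Bil E} (hB : ∀ v w, B v w = B w v) (y : E) :
    fderiv ℝ (fderiv ℝ (qp l B y)) y = B := by
  rw [show fderiv ℝ (qp l B y) = _ from funext fun z => (has_qp l hB y z).fderiv]
  simpa using ((B.hasFDerivAt.comp y ((hasFDerivAt_id (𝕜 := ℝ) y).sub_const y)).const_add l).fderiv

lemma d2_symm {f : E → ℝ} {y : E} (hf : ContDiffAt ℝ ∞ f y) (v w : E) :
    fderiv ℝ (fderiv ℝ f) y v w = fderiv ℝ (fderiv ℝ f) y w v :=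
  (hf.isSymmSndFDerivAt (by simp; norm_cast)) v w

lemma taylor2 {f : E → ℝ} {y : E} (hf : ContDiffAt ℝ ∞ f y) {ε : ℝ} (hε : 0 < ε) :
    ∀ᶠ z in 𝓝 y, |f z - f y - qp (fderiv ℝ f y) (fderiv ℝ (fderiv ℝ f) y) y z| ≤
      ε * ‖z - y‖ ^ 2 := by
  obtain ⟨r, hr, h⟩ := Metric.eventually_nhds_iff.1
    ((cd_d hf).and ((cd_d2 hf).hasFDerivAt.isLittleO.bound hε))
  filter_upwards [ball_mem_nhds y hr] with z hz
  have h1 : ∀ w ∈ closedBall y ‖z - y‖, dist w y < r := fun w hw =>
    (mem_closedBall.1 hw).trans_lt (by rwa [← dist_eq_norm])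
  have := (convex_closedBall y ‖z - y‖).norm_image_sub_le_of_norm_hasFDerivWithin_le
    (C := ε * ‖z - y‖) (x := y) (y := z)
    (fun w hw => ((h (h1 w hw)).1.hasFDerivAt.sub
      (has_qp (fderiv ℝ f y) (d2_symm hf) y w)).hasFDerivWithinAt)
    (fun w hw => by
      rw [← sub_sub]
      exact (h (h1 w hw)).2.trans (mul_le_mul_of_nonneg_left (by rwa [← dist_eq_norm]) hε.le))
    (mem_closedBall_self (norm_nonneg _)) (by simp [dist_eq_norm])
  rw [Real.norm_eq_abs, mul_assoc, ← pow_two] at this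
  convert this using 2
  simp [qp]
  ring

variable [FiniteDimensional ℝ E] {M : Type} [TopologicalSpace M] [ChartedSpace E M]

/-- it is enough to test with functions that are smooth in the whole chart -/
lemma vs_of_smooth {g : Ten E M} {u : ℝ → M → ℝ} {t c : ℝ} {x : M}
    (h : ∀ (d : ℝ) (f : E → ℝ), ContDiff ℝ ∞ f → (∀ᶠ s in 𝓝[<] t, u t x - d * t ≤ u s x - d * s) →
      (∀ᶠ z in 𝓝 (pt E x), u t x - f (pt E x) ≤ rd E (u t) x z - f z) →
      c ≤ d - lapG (co g x) f (pt E x)) : Vs g u t x c := by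
  intro d f a1 a2 a3
  obtain ⟨T, hT⟩ : ∃ T, T = trC (co g x (pt E x)) (ip : Bil E) := ⟨_, rfl⟩
  refine le_of_forall_pos_le_add fun η hη => ?_
  have hε : 0 < η / (2 * (|T| + 1)) := by positivity
  obtain ⟨B, eB⟩ : ∃ B : Bil E, B = fderiv ℝ (fderiv ℝ (rd E f x)) (pt E x) -
    (2 * (η / (2 * (|T| + 1)))) • (ip : Bil E) := ⟨_, rfl⟩
  have hB : ∀ v w, B v w = B w v := fun v w => by simp [eB, d2_symm a1 v w, real_inner_comm]
  have := h d _ (contDiff_qp (fderiv ℝ (rd E f x) (pt E x)) B (pt E x)) a2 (by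
    filter_upwards [taylor2 a1 hε, ev_rd (E := E) a3] with z b1 b2
    have b3 := (abs_le.1 b1).1
    simp only [qp, eB, rd_pt, sub_self, map_zero, mul_zero, add_zero, sub_zero, sub_apply, smul_apply,
      ip_apply, real_inner_self_eq_norm_sq, smul_eq_mul] at b3 ⊢
    simp only [rd, Function.comp] at b3 ⊢
    linarith)
  rw [lapG_split, fderiv2_qp _ hB, (has_qp _ hB _ _).fderiv, sub_self, map_zero, add_zero, eB, map_sub,
    map_smul, ← hT] at this
  rw [lap, lapG_split]
  have h1 : 2 * (η / (2 * (|T| + 1))) * T ≤ η := by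
    rw [show 2 * (η / (2 * (|T| + 1))) * T = η * (T / (|T| + 1)) by field_simp]
    exact mul_le_of_le_one_right hη.le ((div_le_one (by positivity)).2
      ((le_abs_self T).trans (by linarith)))
  rw [smul_eq_mul] at this
  linarith

end Vale.Agent.P216MP
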