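import Vale.Agent.P216R.Defs
import Mathlib.Topology.Order.Compact

/-! # The least eigenvalue of a form with respect to a positive form -/

open Set Filter Topology Metric

set_option maxSynthPendingDepth 3

noncomputable section

namespace Vale.Agent.P216MP

open P216R

variable {E : Type} [NormedAddCommGroup E] [NormedSpace ℝ E]

/-- positive forms -/
def Pos (A : Bil E) : Prop := ∀ v, v ≠ 0 → 0 < A v v

/-- the least eigenvalue of `B` with respect to `A` -/
def lam (A B : Bil E) : ℝ := sInf (range fun v : sphere (0 : E) 1 => B v v / A v v)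

variable [FiniteDimensional ℝ E] {A B : Bil E} {κ : ℝ}

omit [FiniteDimensional ℝ E] in
lemma Pos.sph (hA : Pos A) (v : sphere (0 : E) 1) : 0 < A v v :=
  hA v (ne_zero_of_mem_unit_sphere v)

omit [FiniteDimensional ℝ E] in
lemma Pos.cont (hA : Pos A) (B : Bil E) :
    Continuous fun v : sphere (0 : E) 1 => B v v / A v v :=
  Continuous.div (by fun_prop) (by fun_prop) fun v => (hA.sph v).ne'

lemma Pos.lam_le (hA : Pos A) (B : Bil E) (v : E) : lam A B * A v v ≤ B v v := by
  have := FiniteDimensional.proper_real E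
  rcases eq_or_ne v 0 with rfl | hv
  · simp
  have h0 : 0 < ‖v‖ := norm_pos_iff.2 hv
  have h1 : lam A B ≤ _ := csInf_le (isCompact_range (hA.cont B)).bddBelow
    ⟨⟨‖v‖⁻¹ • v, by simp [norm_smul, h0.ne']⟩, rfl⟩
  simp only [map_smul, smul_apply, smul_eq_mul] at h1
  rw [mul_div_mul_left _ _ (inv_pos.2 h0).ne', mul_div_mul_left _ _ (inv_pos.2 h0).ne'] at h1
  exact (le_div_iff₀ (hA v hv)).1 h1

variable [Nontrivial E]

lemma Pos.exists_lam (hA : Pos A) (B : Bil E) : ∃ v, A v v = 1 ∧ B v v = lam A B := by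
  have := FiniteDimensional.proper_real E
  have : Nonempty (sphere (0 : E) 1) := (NormedSpace.sphere_nonempty.2 zero_le_one).to_subtype
  obtain ⟨v, hv⟩ := (isCompact_range (hA.cont B)).sInf_mem (range_nonempty _)
  have h0 := hA.sph v
  have h1 : (√(A v v))⁻¹ * (√(A v v))⁻¹ = (A v v)⁻¹ := by
    rw [← mul_inv, Real.mul_self_sqrt h0.le]
  refine ⟨(√(A v v))⁻¹ • (v : E), ?_, ?_⟩
  · simp only [map_smul, smul_apply, smul_eq_mul]
    rw [← mul_assoc, h1, inv_mul_cancel₀ h0.ne']
  · simp only [map_smul, smul_apply, smul_eq_mul]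
    rw [← mul_assoc, h1, lam, ← hv]
    exact (div_eq_inv_mul _ _).symm

lemma Pos.le_lam_iff (hA : Pos A) : κ ≤ lam A B ↔ ∀ v, κ * A v v ≤ B v v := by
  refine ⟨fun h v => le_trans ?_ (hA.lam_le B v), fun h => ?_⟩
  · exact mul_le_mul_of_nonneg_right h (P219.RG.nonneg_of_pos hA v)
  · obtain ⟨v, h1, h2⟩ := hA.exists_lam B
    simpa [h1, h2] using h v

lemma Pos.lam_comp (hA : Pos A) (B : Bil E) {T : E →L[ℝ] E} (hT : Function.Injective T) :
    lam (A.bilinearComp T T) (B.bilinearComp T T) = lam A B := by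
  have h1 : Pos (A.bilinearComp T T) := fun v hv =>
    hA _ fun h => hv (hT (h.trans (map_zero T).symm))
  have h2 := (LinearMap.injective_iff_surjective (f := (T : E →ₗ[ℝ] E))).1 hT
  refine eq_of_forall_le_iff fun κ => ?_
  rw [h1.le_lam_iff, hA.le_lam_iff]
  exact ⟨fun h v => by obtain ⟨w, rfl⟩ := h2 v; exact h w, fun h v => h _⟩

omit [Nontrivial E] in
lemma continuousOn_lam : ContinuousOn (fun p : Bil E × Bil E => lam p.1 p.2) {p | Pos p.1} := by
  have := FiniteDimensional.proper_real E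
  rw [continuousOn_iff_continuous_domRestrict]
  have h := isCompact_univ.continuous_sInf
    (f := fun (p : {p : Bil E × Bil E | Pos p.1}) (v : sphere (0 : E) 1) => p.1.2 v v / p.1.1 v v)
    (Continuous.div (by fun_prop) (by fun_prop) fun q => (q.1.2.sph q.2).ne')
  simp only [image_univ] at h
  exact h

omit [Nontrivial E] in
lemma continuousWithinAt_lam {X : Type*} [TopologicalSpace X] {A B : X → Bil E} {s : Set X} {x : X}
    (hA : ContinuousWithinAt A s x) (hB : ContinuousWithinAt B s x) (hx : Pos (A x))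
    (h : ∀ᶠ y in 𝓝[s] x, Pos (A y)) : ContinuousWithinAt (fun y => lam (A y) (B y)) s x := by
  have h1 : Tendsto (fun y => (A y, B y)) (𝓝[s] x)
      (𝓝[{p : Bil E × Bil E | Pos p.1}] (A x, B x)) :=
    tendsto_nhdsWithin_iff.2 ⟨hA.prodMk hB, h⟩
  have h2 := (continuousOn_lam (A x, B x) hx).tendsto
  have h3 := h2.comp h1
  simp only [Function.comp_def] at h3
  exact h3

/-- a nonnegative symmetric form vanishes on its isotropic vectors -/
lemma null_of_isotropic {E : Type} [NormedAddCommGroup E] [NormedSpace ℝ E] {B : Bil E}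
    (hs : ∀ v w, B v w = B w v) (h0 : ∀ v, 0 ≤ B v v) {v : E} (hv : B v v = 0) : B v = 0 := by
  ext w
  have h1 := P219.RG.cs_form B hs h0 v w
  have h2 := P219.RG.cs_form B hs h0 v (-w)
  rw [hv, Real.sqrt_zero, zero_mul] at h1 h2
  rw [map_neg] at h2
  exact le_antisymm h1 (by simpa using h2)

end Vale.Agent.P216MP
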