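import Vale.Agent.P216R.Loc
import Vale.Agent.P216MP.Lam
import Vale.Agent.P216MP.First
import Mathlib.LinearAlgebra.QuadraticForm.Basic

/-! # The Laplacian in a chart: linearity, chain rule, second derivative test -/

open Set Filter Topology
open scoped ContDiff

set_option maxSynthPendingDepth 3

noncomputable section

namespace Vale.Agent.P216MP

open P216R P219.RG
open P210.R2.H53 (gradG gamG hessG lapG)

variable {E : Type} [NormedAddCommGroup E] [NormedSpace ℝ E] {G : E → Bil E} {f k : E → ℝ}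
  {y : E}

lemma cd_d (hf : ContDiffAt ℝ ∞ f y) : ∀ᶠ z in 𝓝 y, DifferentiableAt ℝ f z :=
  ((hf.of_le (m := 1) (by simp)).eventually (by simp)).mono fun _ h =>
    h.differentiableAt one_ne_zero

lemma cd_d2 (hf : ContDiffAt ℝ ∞ f y) : DifferentiableAt ℝ (fderiv ℝ f) y :=
  (hf.fderiv_right (m := ∞) (by simp)).differentiableAt (by simp)

lemma hessG_add (hf : ContDiffAt ℝ ∞ f y) (hk : ContDiffAt ℝ ∞ k y) :
    hessG G (fun z => f z + k z) y = hessG G f y + hessG G k y := by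
  have h1 : fderiv ℝ (fun z => f z + k z) =ᶠ[𝓝 y] fun z => fderiv ℝ f z + fderiv ℝ k z := by
    filter_upwards [cd_d hf, cd_d hk] with z a b using fderiv_fun_add a b
  ext v w
  simp only [hessG_apply, add_apply, h1.fderiv_eq, h1.self_of_nhds,
    fderiv_fun_add (cd_d2 hf) (cd_d2 hk)]
  ring

lemma hessG_comp {η η1 : ℝ → ℝ} {η2 : ℝ} (hf : ContDiffAt ℝ ∞ f y)
    (h1 : ∀ᶠ s in 𝓝 (f y), HasDerivAt η (η1 s) s) (h2 : HasDerivAt η1 η2 (f y)) :
    hessG G (fun z => η (f z)) y =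
      η1 (f y) • hessG G f y + η2 • (fderiv ℝ f y).smulRight (fderiv ℝ f y) := by
  have h3 : fderiv ℝ (fun z => η (f z)) =ᶠ[𝓝 y] fun z => η1 (f z) • fderiv ℝ f z := by
    filter_upwards [cd_d hf, hf.continuousAt.eventually h1] with z a b
    exact (b.comp_hasFDerivAt z a.hasFDerivAt).fderiv
  have h4 := (h2.comp_hasFDerivAt y (cd_d hf).self_of_nhds.hasFDerivAt).smul (cd_d2 hf).hasFDerivAt
  ext v w
  simp only [hessG_apply, add_apply, h3.fderiv_eq, h3.self_of_nhds]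
  rw [show fderiv ℝ (fun z => η1 (f z) • fderiv ℝ f z) y = _ from h4.fderiv]
  simp [hessG_apply]
  ring

lemma hessG_const_mul (c : ℝ) (hf : ContDiffAt ℝ ∞ f y) :
    hessG G (fun z => c * f z) y = c • hessG G f y := by
  rw [hessG_comp (η := fun s => c * s) (η1 := fun _ => c) hf
    (.of_forall fun s => by simpa using (hasDerivAt_id s).const_mul c) (hasDerivAt_const _ _)]
  simp

lemma hessG_const (c : ℝ) : hessG G (fun _ => c) y = 0 := by
  ext v w
  simp [hessG_apply]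

lemma lapG_add (hf : ContDiffAt ℝ ∞ f y) (hk : ContDiffAt ℝ ∞ k y) :
    lapG G (fun z => f z + k z) y = lapG G f y + lapG G k y := by
  simp only [lapG_eq, hessG_add hf hk, trB_add]

lemma lapG_const_mul (c : ℝ) (hf : ContDiffAt ℝ ∞ f y) :
    lapG G (fun z => c * f z) y = c * lapG G f y := by
  simp only [lapG_eq, hessG_const_mul c hf, trB_smul]

lemma lapG_const (c : ℝ) : lapG G (fun _ => c) y = 0 := by simp [lapG_eq, hessG_const, trB]

lemma lapG_neg (hf : ContDiffAt ℝ ∞ f y) : lapG G (fun z => -f z) y = -lapG G f y := by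
  simpa using lapG_const_mul (G := G) (-1) hf

lemma lapG_sub (hf : ContDiffAt ℝ ∞ f y) (hk : ContDiffAt ℝ ∞ k y) :
    lapG G (fun z => f z - k z) y = lapG G f y - lapG G k y := by
  simp only [sub_eq_add_neg, lapG_add hf hk.neg, lapG_neg hk]

/-- the second derivative test -/
lemma fderiv2_nonneg (hf : ContDiffAt ℝ ∞ f y) (h : ∀ᶠ z in 𝓝 y, f y ≤ f z) :
    fderiv ℝ f y = 0 ∧ ∀ v, 0 ≤ fderiv ℝ (fderiv ℝ f) y v v := by
  refine ⟨IsLocalMin.fderiv_eq_zero h, fun v => ?_⟩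
  have h1 : ∀ s : ℝ, HasDerivAt (fun s : ℝ => y + s • v) v s := fun s => by
    simpa using ((hasDerivAt_id s).smul_const v).const_add y
  have h2 : Tendsto (fun s : ℝ => y + s • v) (𝓝 0) (𝓝 y) := by
    simpa using (h1 0).continuousAt.tendsto
  have h3 : HasFDerivAt (fderiv ℝ f) (fderiv ℝ (fderiv ℝ f) y) (y + (0 : ℝ) • v) := by
    simpa using (cd_d2 hf).hasFDerivAt
  refine (second_nonneg (f := fun s : ℝ => f (y + s • v))
    (f1 := fun s : ℝ => fderiv ℝ f (y + s • v) v) (t := 0) ?_ ?_ ?_).2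
  · exact (h2.eventually (cd_d hf)).mono fun s hs => hs.hasFDerivAt.comp_hasDerivAt s (h1 s)
  · simpa using (h3.comp_hasDerivAt 0 (h1 0)).clm_apply (hasDerivAt_const 0 v)
  · simpa using h2.eventually h

variable [FiniteDimensional ℝ E] {A B : Bil E}

lemma trB_rk (A : Bil E) (a b : E →L[ℝ] ℝ) : trB A (a.smulRight b) = a (A.inverse b) := by
  refine Eq.trans ?_ (LinearMap.trace_smulRight (a : E →ₗ[ℝ] ℝ) (A.inverse b))
  rw [trB]
  congr 1
  ext v
  simp

lemma trB_rk_pos (hA : Pos A) {a : E →L[ℝ] ℝ} (ha : a ≠ 0) : 0 < trB A (a.smulRight a) := by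
  rw [trB_rk]
  have h1 := (isInv hA).self_apply_inverse a
  have h2 := hA (A.inverse a) fun h => ha (by rw [← h1, h, map_zero])
  rwa [h1] at h2

/-- an orthonormal basis computes the trace -/
lemma exists_on (hA : Pos A) (hs : ∀ v w, A v w = A w v) :
    ∃ e : Module.Basis (Fin (Module.finrank ℝ E)) ℝ E,
      (∀ i j, A (e i) (e j) = if i = j then 1 else 0) ∧ ∀ B, trB A B = ∑ i, B (e i) (e i) := by
  obtain ⟨b, hb⟩ := LinearMap.BilinForm.exists_orthogonal_basis
    (B := (A.toLinearMap₁₂ : LinearMap.BilinForm ℝ E)) ⟨hs⟩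
  have h0 : ∀ i, 0 < √(A (b i) (b i)) := fun i => Real.sqrt_pos.2 (hA _ (b.ne_zero i))
  let e := b.unitsSMul fun i => Units.mk0 _ (inv_pos.2 (h0 i)).ne'
  have he : ∀ i, e i = (√(A (b i) (b i)))⁻¹ • b i := fun i => by
    simp [e, Module.Basis.unitsSMul_apply]
  have h1 : ∀ i j, A (e i) (e j) = if i = j then 1 else 0 := fun i j => by
    simp only [he, map_smul, smul_apply, smul_eq_mul]
    split_ifs with h
    · subst h
      rw [← mul_assoc, ← mul_inv, Real.mul_self_sqrt (hA _ (b.ne_zero i)).le,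
        inv_mul_cancel₀ (hA _ (b.ne_zero i)).ne']
    · have : A (b i) (b j) = 0 := hb h
      simp [this]
  refine ⟨e, h1, fun B => ?_⟩
  rw [trB, LinearMap.trace_eq_matrix_trace ℝ e, Matrix.trace]
  refine Finset.sum_congr rfl fun i _ => ?_
  have h2 : ∀ w, e.repr w i = A w (e i) := fun w => by
    conv_rhs => rw [← e.sum_repr w]
    simp only [map_sum, map_smul, sum_apply, smul_apply, h1, smul_eq_mul]
    simp
  simp [LinearMap.toMatrix_apply, h2, (isInv hA).self_apply_inverse]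

lemma trB_nonneg (hA : Pos A) (hs : ∀ v w, A v w = A w v) (hB : ∀ v, 0 ≤ B v v) :
    0 ≤ trB A B := by
  obtain ⟨e, -, h⟩ := exists_on hA hs
  rw [h]
  exact Finset.sum_nonneg fun i _ => hB _

lemma lapG_nonneg (hA : Pos (G y)) (hs : ∀ v w, G y v w = G y w v) (hf : ContDiffAt ℝ ∞ f y)
    (h : ∀ᶠ z in 𝓝 y, f y ≤ f z) : 0 ≤ lapG G f y := by
  obtain ⟨h1, h2⟩ := fderiv2_nonneg hf h
  exact trB_nonneg hA hs fun v => by simpa [hessG_apply, h1] using h2 v

lemma lapG_comp {η η1 : ℝ → ℝ} {η2 : ℝ} (hf : ContDiffAt ℝ ∞ f y)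
    (h1 : ∀ᶠ s in 𝓝 (f y), HasDerivAt η (η1 s) s) (h2 : HasDerivAt η1 η2 (f y)) :
    lapG G (fun z => η (f z)) y = η1 (f y) * lapG G f y + η2 * gamG G f f y := by
  rw [lapG_eq, hessG_comp hf h1 h2, trB_add, trB_smul, trB_smul, trB_rk]
  rfl

lemma gamG_nonneg (hA : Pos (G y)) (f : E → ℝ) : 0 ≤ gamG G f f y := by
  have h1 := nonneg_of_pos hA (gradG G f y)
  rwa [gradG, (isInv hA).self_apply_inverse] at h1

/-- the trace as a linear form -/
def trC (A : Bil E) : Bil E →L[ℝ] ℝ :=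
  trL E ∘L ContinuousLinearMap.compL ℝ E (E →L[ℝ] ℝ) E A.inverse

/-- the first order part of the Laplacian -/
def drC (A : Bil E) (Γ : E →L[ℝ] E →L[ℝ] E) : (E →L[ℝ] ℝ) →L[ℝ] ℝ :=
  -(trC A ∘L (ContinuousLinearMap.compL ℝ E (E →L[ℝ] E) (E →L[ℝ] ℝ)).flip Γ ∘L
    ContinuousLinearMap.compL ℝ E E ℝ)

lemma trC_apply (A B : Bil E) : trC A B = trB A B := rfl

lemma lapG_split (G : E → Bil E) (f : E → ℝ) (y : E) : lapG G f y =
    trC (G y) (fderiv ℝ (fderiv ℝ f) y) + drC (G y) (chrisB G y) (fderiv ℝ f y) := by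
  rw [lapG_eq, ← trC_apply, P210.R2.H53.hessG, map_sub, chris210]
  rfl

end Vale.Agent.P216MP
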