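import Vale.Agent.P216MP.Jet2
import Vale.Agent.P216BF.Curv
import Vale.Agent.P216R.Flow

/-! # The least sectional curvature and the least Ricci curvature in dimension three -/

open Set Filter Topology
open scoped ContDiff Manifold

set_option maxSynthPendingDepth 3
set_option linter.unusedSectionVars false

noncomputable section

namespace Vale.Agent.P216MP

open P216R P216BF

section Pinch

variable {R ν τ R' ν' : ℝ}

lemma Pinch.of_le (h : Pinch R ν τ) (hτ : 0 < τ) (h1 : R ≤ R') (h2 : ν ≤ ν') (h3 : 6 * ν' ≤ R') :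
    Pinch R' ν' τ := by
  refine ⟨h.1.trans h1, fun h4 => ?_⟩
  rcases le_total (Real.log (-2 * ν' * τ)) 2 with h5 | h5
  · exact ivey_small (by linarith) hτ h5 (by linarith) (h.1.trans h1)
  · have h6 := ivey_tangent (X := -2 * ν') (Y := -2 * ν) (by linarith) (by linarith) hτ
    nlinarith [h.2 (by linarith), mul_nonneg (sub_nonneg.2 h5) (sub_nonneg.2 h2)]

lemma Pinch.of_nonneg (hτ : 0 < τ) (h1 : 6 * ν ≤ R) (h2 : 0 ≤ ν) : Pinch R ν τ :=
  Pinch.of_small hτ h1 (by nlinarith [mul_nonneg h2 hτ.le])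

/-- negative curvature is small compared with large scalar curvature -/
lemma Pinch.bound (h : Pinch R ν τ) (hτ : 0 < τ) {ε : ℝ} (hε : 0 < ε) :
    -2 * ν ≤ max (ε * R) (Real.exp (3 + 1 / ε) / τ) := by
  refine le_max_iff.2 ((le_or_gt _ _).symm.imp_left fun h1 => ?_)
  have h2 : 0 < -2 * ν := (div_pos (Real.exp_pos _) hτ).trans h1
  have h3 := (Real.le_log_iff_exp_le (mul_pos h2 hτ)).2 ((div_lt_iff₀ hτ).1 h1).le
  have h4 : -2 * ν * (1 / ε) ≤ R :=
    le_trans (mul_le_mul_of_nonneg_left (by linarith) h2.le) (h.2 (by linarith))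
  rwa [mul_one_div, div_le_iff₀' hε] at h4

lemma Pinch.scale (h : Pinch R ν τ) {c : ℝ} (hc : 0 < c) : Pinch (c⁻¹ * R) (c⁻¹ * ν) (c * τ) := by
  have h0 := inv_pos.2 hc
  refine ⟨?_, fun h1 => ?_⟩
  · rw [show -3 / (c * τ) = c⁻¹ * (-3 / τ) by rw [div_mul_eq_div_div_swap, div_eq_inv_mul]]
    exact mul_le_mul_of_nonneg_left h.1 h0.le
  · have h2 := mul_le_mul_of_nonneg_left (h.2 (neg_of_mul_neg_right h1 h0.le)) h0.le
    rw [ivey, show -2 * (c⁻¹ * ν) * (c * τ) = -2 * ν * τ by field_simp]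
    rw [ivey] at h2
    linarith

end Pinch

variable {M : Type} [TopologicalSpace M] [ChartedSpace E3 M] [IsManifold 𝓘(ℝ, E3) ∞ M]
  {N : Type} [TopologicalSpace N] [ChartedSpace E3 N] [IsManifold 𝓘(ℝ, E3) ∞ N]

/-- the curvature operator: `Pm v v` is the curvature of the plane orthogonal to `v` -/
def Pm (g : Ten E3 M) : Ten E3 M := fun x => (Sc g x / 2) • g x - Ric g x

/-- the least sectional curvature -/
def nu (g : Ten E3 M) (x : M) : ℝ := lam (g x) (Pm g x)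

/-- the least Ricci curvature -/
def rho (g : Ten E3 M) (x : M) : ℝ := lam (g x) (Ric g x)

/-- the pinching condition at `x` -/
def PinchAt (g : Ten E3 M) (x : M) (τ : ℝ) : Prop := Pinch (Sc g x) (nu g x) τ

variable {g h : Ten E3 M} {U : Set M} {x : M} {κ c τ : ℝ} {e : Fin 3 → E3}

lemma pm_apply (v w : E3) : Pm g x v w = Sc g x / 2 * g x v w - Ric g x v w := by simp [Pm]

lemma pm_symm (hg : Met g U) (hx : x ∈ U) (v w : E3) : Pm g x v w = Pm g x w v := by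
  rw [pm_apply, pm_apply, hg.symm x hx, ric_symm hg hx]

lemma pm_frame (hg : Met g U) (hx : x ∈ U) (he : ONB (g x) e) :
    Pm g x (e 0) (e 0) = secN g x (e 1) (e 2) := by
  rw [pm_apply, he.self]
  linarith [(sc_frame3 hg hx he).1, (sc_frame3 hg hx he).2]

lemma card3 : Module.finrank ℝ E3 = Fintype.card (Fin 3) := by simp

lemma nu_le (hg : Met g U) (hx : x ∈ U) (v : E3) : nu g x * g x v v ≤ Pm g x v v :=
  Pos.lam_le (hg.pos x hx) _ v

lemma rho_le (hg : Met g U) (hx : x ∈ U) (v : E3) : rho g x * g x v v ≤ Ric g x v v :=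
  Pos.lam_le (hg.pos x hx) _ v

lemma exists_nu (hg : Met g U) (hx : x ∈ U) :
    ∃ e : Fin 3 → E3, ONB (g x) e ∧ Pm g x (e 0) (e 0) = nu g x := by
  obtain ⟨v, h1, h2⟩ := Pos.exists_lam (hg.pos x hx) (Pm g x)
  obtain ⟨e, he, rfl⟩ := (met_pd hg hx).onb_unit card3 h1 0
  exact ⟨e, he, h2⟩

lemma exists_rho (hg : Met g U) (hx : x ∈ U) :
    ∃ e : Fin 3 → E3, ONB (g x) e ∧ Ric g x (e 0) (e 0) = rho g x := by
  obtain ⟨v, h1, h2⟩ := Pos.exists_lam (hg.pos x hx) (Ric g x)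
  obtain ⟨e, he, rfl⟩ := (met_pd hg hx).onb_unit card3 h1 0
  exact ⟨e, he, h2⟩

theorem secGe_iff (hg : Met g U) (hx : x ∈ U) : SecGe g x κ ↔ κ ≤ nu g x := by
  refine ⟨fun h => ?_, fun h => secGe_of_pair hg hx fun v w hv hw hvw => ?_⟩
  · obtain ⟨e, he, h1⟩ := exists_nu hg hx
    rw [← h1, pm_frame hg hx he]
    exact SecGe.pair h (he.self 1) (he.self 2) (he.ne (by decide))
  · obtain ⟨e, he, rfl, rfl⟩ := (met_pd hg hx).onb_pair card3 hv hw hvw (i := 1) (j := 2)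
      (by decide)
    have := nu_le hg hx (e 0)
    rw [he.self, mul_one, pm_frame hg hx he] at this
    exact h.trans this

theorem ricGe_iff (hg : Met g U) (hx : x ∈ U) : RicGe g x κ ↔ κ ≤ rho g x :=
  (Pos.le_lam_iff (hg.pos x hx)).symm

lemma secGe_nu (hg : Met g U) (hx : x ∈ U) : SecGe g x (nu g x) := (secGe_iff hg hx).2 le_rfl

lemma six_nu_le (hg : Met g U) (hx : x ∈ U) : 6 * nu g x ≤ Sc g x :=
  sc_ge3 finrank_E3 hg hx (secGe_nu hg hx)

lemma two_nu_le (hg : Met g U) (hx : x ∈ U) : 2 * nu g x ≤ rho g x :=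
  (ricGe_iff hg hx).1 (ricGe3 finrank_E3 hg hx (secGe_nu hg hx))

lemma nu_congr (H : g =ᶠ[𝓝 x] h) : nu g x = nu h x := by
  simp only [nu, Pm, Sc_congr H, Ric_congr H, H.self_of_nhds]

lemma rho_congr (H : g =ᶠ[𝓝 x] h) : rho g x = rho h x := by
  simp only [rho, Ric_congr H, H.self_of_nhds]

lemma nu_smul (hg : Met g U) (hx : x ∈ U) (hc : 0 < c) : nu (c • g) x = c⁻¹ * nu g x :=
  eq_of_forall_le_iff fun κ => by
    rw [← secGe_iff (hg.smul hc) hx, SecGe_smul g x hc, secGe_iff hg hx, le_inv_mul_iff₀ hc]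

lemma li_nu {h : Ten E3 N} {f : N → M} {y : N} (H : LI h g f y) : nu h y = nu g (f y) := by
  obtain ⟨U, h1, h2⟩ := H.met
  obtain ⟨V, h3, h4⟩ := H.met'
  exact eq_of_forall_le_iff fun κ => by rw [← secGe_iff h1 h2, ← secGe_iff h3 h4, H.SecGe]

lemma li_rho {h : Ten E3 N} {f : N → M} {y : N} (H : LI h g f y) : rho h y = rho g (f y) := by
  obtain ⟨U, h1, h2⟩ := H.met
  rw [rho, H.Ric, H.eq]
  exact Pos.lam_comp (h1.pos _ h2) _ H.inj

lemma li_pinch {h : Ten E3 N} {f : N → M} {y : N} (H : LI h g f y) :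
    PinchAt h y τ ↔ PinchAt g (f y) τ := by rw [PinchAt, H.Sc, li_nu H, PinchAt]

lemma pinchAt_congr (H : g =ᶠ[𝓝 x] h) : PinchAt g x τ ↔ PinchAt h x τ := by
  rw [PinchAt, Sc_congr H, nu_congr H, PinchAt]

lemma PinchAt.smul (H : PinchAt g x τ) (hg : Met g U) (hx : x ∈ U) (hc : 0 < c) :
    PinchAt (c • g) x (c * τ) := by
  rw [PinchAt, Sc_smul g x hc.ne', nu_smul hg hx hc]
  exact H.scale hc

lemma pinchAt_of_secGe (hg : Met g U) (hx : x ∈ U) (hτ : 0 < τ) (h : SecGe g x (-κ))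
    (hκ : 2 * κ * τ ≤ 1) : PinchAt g x τ :=
  Pinch.of_small hτ (six_nu_le hg hx) (by nlinarith [(secGe_iff hg hx).1 h])

/-- comparison with another metric, possibly on another manifold -/
lemma PinchAt.of_le {h : Ten E3 N} {V : Set N} {y : N} (H : PinchAt g x τ) (hτ : 0 < τ)
    (hh : Met h V) (hy : y ∈ V) (h1 : Sc g x ≤ Sc h y) (h2 : SecGe h y (nu g x)) :
    PinchAt h y τ := Pinch.of_le H hτ h1 ((secGe_iff hh hy).1 h2) (six_nu_le hh hy)

lemma PinchAt.secGe (H : PinchAt g x τ) (hg : Met g U) (hx : x ∈ U) (hτ : 0 < τ) {ε : ℝ}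
    (hε : 0 < ε) : SecGe g x (-(max (ε * Sc g x) (Real.exp (3 + 1 / ε) / τ) / 2)) :=
  (secGe_iff hg hx).2 (by linarith [H.bound hτ hε])

lemma rd_nu (hg : Met g U) {a : M} {z : E3} (hz : z ∈ dom E3 a U) :
    rd E3 (nu g) a z = nu (co g a) z := (li_nu (li_comap hg (ld_symm a) hz.1 hz.2)).symm

lemma rd_rho (hg : Met g U) {a : M} {z : E3} (hz : z ∈ dom E3 a U) :
    rd E3 (rho g) a z = rho (co g a) z := (li_rho (li_comap hg (ld_symm a) hz.1 hz.2)).symm

lemma pm_model (G : E3 → Bil E3) (z : E3) : Pm G z = (scG G z / 2) • G z - ricG G z := by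
  rw [Pm, Sc_model, Ric_model]

section Fam

variable {g : ℝ → Ten E3 M} {I : Set ℝ} {t : ℝ}

lemma ps_Pm (hg : Fam g I U) (ht : t ∈ I) {a : M} {z : E3} (hz : z ∈ dom E3 a U) :
    PS (fun s => Pm (co (g s) a)) I t z := by
  simp only [PS, pm_model]
  exact ((((hg.ps ht hz).scG ht (hg.co_pos ht hz)).div_const 2).smul (hg.ps ht hz)).sub
    (hg.ps_ricG ht hz)

lemma ev_dom (hg : Fam g I U) (hx : x ∈ U) :
    ∀ᶠ q : ℝ × E3 in 𝓝[I ×ˢ univ] (t, pt E3 x), q.1 ∈ I ∧ q.2 ∈ dom E3 x U := by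
  filter_upwards [self_mem_nhdsWithin, mem_nhdsWithin_of_mem_nhds ((continuous_snd.tendsto
    (t, pt E3 x)).eventually ((isOpen_dom x hg.isOpen).mem_nhds (pt_mem_dom hx)))] with q h1 h2
    using ⟨h1.1, h2⟩

theorem continuousOn_nu (hg : Fam g I U) :
    ContinuousOn (fun q : ℝ × M => nu (g q.1) q.2) (I ×ˢ U) := by
  refine continuousOn_of_rd (E := E3) (u := fun s => nu (g s)) fun t ht x hx => ?_
  have hz := pt_mem_dom (E := E3) hx
  exact (continuousWithinAt_lam (hg.ps ht hz).continuousWithinAt (ps_Pm hg ht hz).continuousWithinAt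
    (hg.co_pos ht hz) ((ev_dom hg hx).mono fun q hq => hg.co_pos hq.1 hq.2)).congr_of_eventuallyEq
    ((ev_dom hg hx).mono fun q hq => rd_nu (hg.met hq.1) hq.2) (rd_nu (hg.met ht) hz)

theorem continuousOn_rho (hg : Fam g I U) :
    ContinuousOn (fun q : ℝ × M => rho (g q.1) q.2) (I ×ˢ U) := by
  refine continuousOn_of_rd (E := E3) (u := fun s => rho (g s)) fun t ht x hx => ?_
  have hz := pt_mem_dom (E := E3) hx
  exact (continuousWithinAt_lam (hg.ps ht hz).continuousWithinAt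
    (hg.ps_ricG ht hz).continuousWithinAt (hg.co_pos ht hz)
    ((ev_dom hg hx).mono fun q hq => hg.co_pos hq.1 hq.2)).congr_of_eventuallyEq
    ((ev_dom hg hx).mono fun q hq => (rd_rho (hg.met hq.1) hq.2).trans (by rw [rho, Ric_model]))
    ((rd_rho (hg.met ht) hz).trans (by rw [rho, Ric_model]))

end Fam

end Vale.Agent.P216MP
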