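import Vale.Agent.P216MP.VsF
import Vale.Agent.P216MP.Rank1
import Vale.Agent.P216D.ModE
import Mathlib.MeasureTheory.Integral.CurveIntegral.Poincare

/-! # Curvature operators of rank one in a chart -/

open Set Filter Topology Metric
open scoped ContDiff Manifold

set_option maxSynthPendingDepth 3
set_option linter.unusedSectionVars false

noncomputable section

namespace Vale.Agent.P216MP

open P216R P216BF P216D P216D.Loc P219.RG
open P210.R2.H53 (gradG gamG hessG lapG)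

section Ring

variable {A : Type*} [CommRing A] [Algebra ℝ A] {c : Fr A} {β : Fin 3 → A}

lemma Rk1.eq_sq' (h : Rk1 c) (h0 : ∑ a, ∑ b, c.Ric a b * (β a * β b) = 0) :
    ∑ a, ∑ b, ((∑ k, β k * β k) * c.M a b - c.S * (β a * β b)) ^ 2 = 0 := by
  have h2 := h.N0
  simp only [Fr.N0, Fr.Ric, Fin.sum_univ_three, eps_nf, zs_nf] at *
  linear_combination (β 0 * β 0 + β 1 * β 1 + β 2 * β 2) ^ 2 * h2 +
    2 * c.S * (β 0 * β 0 + β 1 * β 1 + β 2 * β 2) * h0

lemma Par.cone (h : Par c) (h0 : ∀ a b, (∑ k, β k * β k) * c.M a b = c.S * (β a * β b))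
    (h1 : ∀ a b, c.D a (β b) = dl a b • (1 : A)) : (c.S * ∑ k, β k * β k) ^ 2 = 0 := by
  have h2 : ∀ a b, 2 * c.S * β a * c.M a b = c.S ^ 2 * (β b + dl a b • β a) := by
    refine all3 (all3 ?_ ?_ ?_) (all3 ?_ ?_ ?_) (all3 ?_ ?_ ?_)
    all_goals
      refine (fun (H : ∀ a b, c.D a ((∑ k, β k * β k) * c.M a b) = c.D a (c.S * (β a * β b))) =>
        ?_) fun a b => congrArg (c.D a) (h0 a b)
      simp only [Fin.sum_univ_three, der_nf, h1] at H h0
    · linear_combination (norm := (simp only [eps_nf, zs_nf]; ring1)) c.S * H 0 0 -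
        (β 0 * β 0 + β 1 * β 1 + β 2 * β 2) * h 0 0 0 - c.D 0 c.S * h0 0 0
    · linear_combination (norm := (simp only [eps_nf, zs_nf]; ring1)) c.S * H 0 1 -
        (β 0 * β 0 + β 1 * β 1 + β 2 * β 2) * h 0 0 1 - c.D 0 c.S * h0 0 1
    · linear_combination (norm := (simp only [eps_nf, zs_nf]; ring1)) c.S * H 0 2 -
        (β 0 * β 0 + β 1 * β 1 + β 2 * β 2) * h 0 0 2 - c.D 0 c.S * h0 0 2
    · linear_combination (norm := (simp only [eps_nf, zs_nf]; ring1)) c.S * H 1 0 -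
        (β 0 * β 0 + β 1 * β 1 + β 2 * β 2) * h 1 1 0 - c.D 1 c.S * h0 1 0
    · linear_combination (norm := (simp only [eps_nf, zs_nf]; ring1)) c.S * H 1 1 -
        (β 0 * β 0 + β 1 * β 1 + β 2 * β 2) * h 1 1 1 - c.D 1 c.S * h0 1 1
    · linear_combination (norm := (simp only [eps_nf, zs_nf]; ring1)) c.S * H 1 2 -
        (β 0 * β 0 + β 1 * β 1 + β 2 * β 2) * h 1 1 2 - c.D 1 c.S * h0 1 2
    · linear_combination (norm := (simp only [eps_nf, zs_nf]; ring1)) c.S * H 2 0 -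
        (β 0 * β 0 + β 1 * β 1 + β 2 * β 2) * h 2 2 0 - c.D 2 c.S * h0 2 0
    · linear_combination (norm := (simp only [eps_nf, zs_nf]; ring1)) c.S * H 2 1 -
        (β 0 * β 0 + β 1 * β 1 + β 2 * β 2) * h 2 2 1 - c.D 2 c.S * h0 2 1
    · linear_combination (norm := (simp only [eps_nf, zs_nf]; ring1)) c.S * H 2 2 -
        (β 0 * β 0 + β 1 * β 1 + β 2 * β 2) * h 2 2 2 - c.D 2 c.S * h0 2 2
  have h3 : ∑ a, ∑ b, (∑ k, β k * β k) * β b * (2 * c.S * β a * c.M a b) =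
      ∑ a, ∑ b, 2 * c.S * β a * β b * (c.S * (β a * β b)) :=
    Finset.sum_congr rfl fun a _ => Finset.sum_congr rfl fun b _ => by rw [← h0]; ring
  simp only [h2] at h3
  simp only [Fin.sum_univ_three, eps_nf, zs_nf] at h3 ⊢
  exact two_cancel (by linear_combination h3)

end Ring

section Rk

variable {M : Type} [TopologicalSpace M] [ChartedSpace E3 M] [IsManifold 𝓘(ℝ, E3) ∞ M]
  {g : Ten E3 M} {U : Set M} {y : M}

/-- the curvature operator has rank at most one -/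
def Rk (g : Ten E3 M) (y : M) : Prop :=
  ∃ v, g y v v = 1 ∧ ∀ a b, Pm g y a b = Sc g y / 2 * (g y v a * g y v b)

lemma rk_of (hg : Met g U) (hy : y ∈ U) (hs : SecGe g y 0) (h : rho g y = 0) : Rk g y := by
  obtain ⟨e, he, h0⟩ := exists_rho hg hy
  have n := fun v => (nu_le hg hy v).trans' (mul_nonneg ((secGe_iff hg hy).1 hs) (hg.nonneg hy v))
  have h1 := pm_apply (g := g) (x := y) (e 0) (e 0)
  have h2 := sc_eq hg hy he
  have h3 := pm_apply (g := g) (x := y) (e 1) (e 1)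
  have h4 := pm_apply (g := g) (x := y) (e 2) (e 2)
  simp only [he.self, h0, h, Fin.sum_univ_three] at h1 h2 h3 h4
  have h5 := null_of_isotropic (pm_symm hg hy) n (v := e 1) (by linarith [n (e 1), n (e 2)])
  have h6 := null_of_isotropic (pm_symm hg hy) n (v := e 2) (by linarith [n (e 1), n (e 2)])
  refine ⟨e 0, he.self 0, fun a b => ?_⟩
  rw [(onb_on he).bil (Pm g y), hg.symm y hy (e 0) a, hg.symm y hy (e 0) b]
  simp [Fin.sum_univ_three, h5, h6, h1, pm_symm hg hy (e 0) (e 1), pm_symm hg hy (e 0) (e 2)]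

end Rk

variable {L : Loc}

lemma sq2_zero {F : Fin 3 → Fin 3 → L.A} (h : ∑ a, ∑ b, F a b ^ 2 = 0) (a b : Fin 3) :
    F a b = 0 := Sm.ext fun p => by
  have h1 := congrArg (ev p) h
  simp only [map_sum, map_pow, map_zero] at h1 ⊢
  exact pow_eq_zero_iff two_ne_zero |>.1 ((Finset.sum_eq_zero_iff_of_nonneg
    fun _ _ => sq_nonneg _).1 ((Finset.sum_eq_zero_iff_of_nonneg fun _ _ =>
      Finset.sum_nonneg fun _ _ => sq_nonneg _).1 h1 a (Finset.mem_univ _)) b (Finset.mem_univ _))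

lemma ev_S' (q : L.O) : ev q L.fr.S = Sc (L.g (t q)) (x q) / 2 := by
  rw [Sc_model, ← ev_S]; ring

lemma rk1_of (h : ∀ q : L.O, Rk (L.g (t q)) (x q)) : Rk1 L.fr := fun a b => Sm.ext fun q => by
  obtain ⟨v, h1, h2⟩ := h q
  rw [(on_g q).pars (L.g (t q) (x q) v) v, Fin.sum_univ_three] at h1
  simp only [map_add, map_mul, ev_Pm, ev_S', h2, Fin.sum_univ_three]
  linear_combination (Sc (L.g (t q)) (x q) / 2) ^ 2 *
    (L.g (t q) (x q) v (e q a) * L.g (t q) (x q) v (e q b)) * h1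

lemma par_of (hL : RF L.g L.I L.U) (h : Rk1 L.fr) : Par L.fr := fun d a b => Sm.ext fun p => by
  have h1 := congrArg (ev p) (Rk1.par_sq (c := Loc.rf hL) h)
  simp only [map_sum, map_pow, map_zero] at h1
  have h2 := (Finset.sum_eq_zero_iff_of_nonneg fun _ _ => Finset.sum_nonneg fun _ _ =>
    Finset.sum_nonneg fun _ _ => sq_nonneg _).1 h1 d (Finset.mem_univ _)
  have h3 := pow_eq_zero_iff two_ne_zero |>.1 ((Finset.sum_eq_zero_iff_of_nonneg
    fun _ _ => sq_nonneg _).1 ((Finset.sum_eq_zero_iff_of_nonneg fun _ _ =>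
      Finset.sum_nonneg fun _ _ => sq_nonneg _).1 h2 a (Finset.mem_univ _)) b (Finset.mem_univ _))
  rw [map_sub] at h3
  exact sub_eq_zero.1 h3

/-- the covariant derivative of the curvature operator in a frame -/
def dM (G : E3 → Bil E3) (z : E3) (e : Fin 3 → E3) (d a b : Fin 3) : ℝ :=
  rmG G 1 (z, fun s => e (ix 1 (fun _ => d) ![a + 1, a + 2, b + 2, b + 1] s))

lemma ev_dM (q : L.O) (d a b : Fin 3) :
    ev q (L.fr.D d (L.fr.M a b)) = dM (L.g (t q)) (x q) (e q) d a b :=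
  ev_Dw_M q 1 (fun _ => d) a b

/-- the normalised curvature operator is parallel at `z` -/
def ParP (G : E3 → Bil E3) (z : E3) : Prop := ∀ e, ON (G z) e → ∀ d a b,
  Sc G z / 2 * dM G z e d a b = (dM G z e d 0 0 + dM G z e d 1 1 + dM G z e d 2 2) *
    Pm G z (e a) (e b)

lemma par_iff : Par L.fr ↔ ∀ s ∈ L.I, ∀ z ∈ L.U, ParP (L.g s) z := by
  refine ⟨fun h s hs z hz f hf d a b => ?_, fun h d a b => Sm.ext fun q => ?_⟩
  · have := congrArg (ev (mkF hs hz hf)) (h d a b)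
    rw [map_mul, map_mul, ev_S', Fr.S] at this
    simp only [map_add, ev_dM, ev_Pm] at this
    exact this
  · rw [map_mul, map_mul, ev_S', Fr.S]
    simpa only [map_add, ev_dM, ev_Pm] using h _ (t_mem q) _ (x_mem q) _ (on_g q) d a b

lemma has_Dt_of {F : L.A} {w : ℝ → E3 → ℝ} (h : ∀ q, ev q F = w (t q) (x q)) (p : L.O) :
    HasDerivWithinAt (fun s => w s (x p)) (ev p (L.fl.Dt F)) L.I (t p) := by
  have hw : ContDiffOn ℝ ∞ (fun b : ℝ × E3 => w b.1 b.2) L.W :=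
    (sm_desc F).congr fun b hb => ((desc_eq F hb).trans (h _)).symm
  rw [show F = L.sc _ hw from Sm.ext h]
  exact has_Dt_sc hw p

variable {f : E3 → ℝ}

variable (L) in
/-- a function that does not depend on the time -/
def cst (f : E3 → ℝ) (hf : ContDiffOn ℝ ∞ f L.U) : L.A :=
  L.sc (fun b => f b.2) (hf.comp contDiffOn_snd fun _ hb => hb.2)

/-- the Ricci curvature in the direction of the gradient -/
def psi (G : E3 → Bil E3) (f : E3 → ℝ) (z : E3) : ℝ := ricG G z (gradG G f z) (gradG G f z)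

variable (hf : ContDiffOn ℝ ∞ f L.U) (q : L.O)

lemma ev_rip : ev q (L.fr.rip (cst L f hf) (cst L f hf)) = psi (L.g (t q)) f (x q) := by
  rw [psi, (on_g q).bil (ricG _ _)]
  simp only [Fr.rip, cst, map_sum, map_mul, ev_Ric, ev_D_sc, gradG, app_inverse (pos_g q)]

lemma ev_ip : ev q (L.fr.ip (cst L f hf) (cst L f hf)) = gamG (L.g (t q)) f f (x q) :=
  ev_ip_sc q _ _

lemma ev_hess (a b : Fin 3) : ev q (L.fr.D a (L.fr.D b (cst L f hf))) =
    hessG (L.g (t q)) f (x q) (e q a) (e q b) := ev_hess_sc q _ a b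

lemma Dt_cst : L.fl.Dt (cst L f hf) = 0 := Sm.ext fun q => by simp [cst, ev_Dt_sc]

include hf in
lemma has_gam (hL : RF L.g L.I L.U) : HasDerivWithinAt (fun s => gamG (L.g s) f f (x q))
    (2 * psi (L.g (t q)) f (x q)) L.I (t q) := by
  refine (has_Dt_of (w := fun s => gamG (L.g s) f f) (ev_ip hf) q).congr_deriv ?_
  have h2 := RF.Dt_ip (c := Loc.rf hL) (f := cst L f hf) (h := cst L f hf) (inv_sc _) (inv_sc _)
  simp only [rf_toFl, fl_toFr] at h2
  rw [h2, Dt_cst, Fr.ip_comm _ _ 0, Fr.ip_const _ (fun _ => map_zero _), zero_add, zero_add, map_mul,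
    map_ofNat, ev_rip]

include hf in
lemma has_psi (hL : RF L.g L.I L.U) (h : Rk1 L.fr) : ∃ ψ' S',
    HasDerivWithinAt (fun s => psi (L.g s) f (x q)) ψ' L.I (t q) ∧
    HasDerivWithinAt (fun s => Sc (L.g s) (x q) / 2) S' L.I (t q) ∧
    Sc (L.g (t q)) (x q) / 2 * ψ' =
      (S' + 2 * (Sc (L.g (t q)) (x q) / 2) ^ 2) * psi (L.g (t q)) f (x q) := by
  refine ⟨_, _, has_Dt_of (w := fun s => psi (L.g s) f) (ev_rip hf) q,
    has_Dt_of (w := fun s z => Sc (L.g s) z / 2) ev_S' q, ?_⟩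
  have := congrArg (ev q) (Rk1.dt_rip (c := Loc.rf hL) h (par_of hL h) (f := cst L f hf) (inv_sc _)
    (Dt_cst hf))
  simpa only [rf_toFl, fl_toFr, map_mul, map_add, map_pow, map_ofNat, ev_S', ev_rip] using this

section Static

variable {G : E3 → Bil E3} {V : Set E3} {z : E3}

lemma st_psi (hG : IsMetricOn G V) (hf : ContDiffOn ℝ ∞ f V) {r : ℝ}
    (h : ∀ z ∈ V, hessG G f z = r • G z) (hz : z ∈ V) : psi G f z = 0 := by
  have h1 := ric_grad_eq_zero (c := (loc0 hG).fr) (f := cst (loc0 hG) f hf) (inv_sc _) (r := r)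
    fun a b => Sm.ext fun q => by
      have := on_g q a b
      rw [ev_hess, map_zsmul, AlgHom.commutes]
      simp only [loc_g] at this ⊢
      simp [h _ (x_mem q), this, mul_comm]
  have h2 : (loc0 hG).fr.rip (cst _ f hf) (cst _ f hf) = 0 :=
    Finset.sum_eq_zero fun a _ => by
      rw [Finset.sum_congr rfl fun b _ => mul_left_comm _ _ _, ← Finset.mul_sum, h1, mul_zero]
  have := ev_rip (L := loc0 hG) hf (sec (b := (0, z)) ⟨trivial, hz⟩)
  rw [h2, map_zero] at this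
  exact this.symm

lemma st_eq (hG : IsMetricOn G V) (hf : ContDiffOn ℝ ∞ f V) (h1 : ∀ z ∈ V, Rk G z)
    (h : ∀ z ∈ V, psi G f z = 0) (a b : Fin 3) :
    (∑ k, (loc0 hG).fr.D k (cst _ f hf) * (loc0 hG).fr.D k (cst _ f hf)) * (loc0 hG).fr.M a b =
      (loc0 hG).fr.S * ((loc0 hG).fr.D a (cst _ f hf) * (loc0 hG).fr.D b (cst _ f hf)) :=
  sub_eq_zero.1 (sq2_zero ((rk1_of (L := loc0 hG) fun q => h1 _ (x_mem q)).eq_sq'
    (Sm.ext fun q => (ev_rip (L := loc0 hG) hf q).trans (h _ (x_mem q)))) a b)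

lemma st_cone (hG : IsMetricOn G V) (hf : ContDiffOn ℝ ∞ f V) (h1 : ∀ z ∈ V, Rk G z)
    (h2 : ∀ z ∈ V, ParP G z) (h : ∀ z ∈ V, hessG G f z = G z) (hz : z ∈ V) :
    Sc G z * gamG G f f z = 0 := by
  have h3 := ((par_iff (L := loc0 hG)).2 fun _ _ => h2).cone (st_eq hG hf h1 fun z hz =>
    st_psi hG hf (r := 1) (by simpa using h) hz) fun a b => Sm.ext fun q => by
      have := on_g q a b
      rw [ev_hess, map_zsmul, map_one]
      simp only [loc_g] at this ⊢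
      simp [h _ (x_mem q), this]
  have h4 := congrArg (ev (sec (L := loc0 hG) (b := (0, z)) ⟨trivial, hz⟩)) h3
  rw [map_pow, map_zero, pow_eq_zero_iff two_ne_zero, map_mul, ev_S', ← Fr.ip, ev_ip] at h4
  exact (mul_div_right_comm _ _ _).trans h4 |> div_eq_zero_iff.1 |>.resolve_right two_ne_zero

lemma st_hess (hG : IsMetricOn G V) (hf : ContDiffOn ℝ ∞ f V) (h1 : ∀ z ∈ V, Rk G z)
    (h2 : ∀ z ∈ V, ParP G z) (h : ∀ z ∈ V, psi G f z = 0) (h3 : ∀ z ∈ V, gamG G f f z = 1)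
    (hz : z ∈ V) (h0 : Sc G z ≠ 0) : hessG G f z = 0 := by
  have h4 : ∑ k, (loc0 hG).fr.D k (cst _ f hf) * (loc0 hG).fr.D k (cst _ f hf) = 1 :=
    Sm.ext fun q => (ev_ip (L := loc0 hG) hf q).trans ((h3 _ (x_mem q)).trans (map_one _).symm)
  have h5 := ((par_iff (L := loc0 hG)).2 fun _ _ => h2).unit
    (fun a b => by simpa only [h4, one_mul] using st_eq hG hf h1 h a b)
    (by simpa only [pow_two] using h4)
  obtain ⟨q, rfl⟩ : ∃ q : (loc0 hG).O, x q = z := ⟨sec (b := (0, z)) ⟨trivial, hz⟩, rfl⟩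
  ext1 v
  ext1 w
  rw [(on_g q).bil (hessG G f (x q))]
  refine Finset.sum_eq_zero fun a _ => Finset.sum_eq_zero fun b _ => ?_
  have h6 := congrArg (ev q) (h5 a b)
  rw [map_mul, map_pow, ev_S', ev_hess, map_zero] at h6
  exact mul_eq_zero_of_left ((mul_eq_zero.1 h6).resolve_left
    (pow_ne_zero _ (div_ne_zero h0 two_ne_zero))) _

/-- the kernel of the Ricci tensor is spanned by a parallel gradient -/
lemma st_loc (hG : IsMetricOn G V) (h1 : ∀ z ∈ V, Rk G z) (h2 : ∀ z ∈ V, ParP G z)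
    (h0 : ∀ z ∈ V, 0 < Sc G z) (hz : z ∈ V) : ∃ r > 0, ball z r ⊆ V ∧ ∃ f : E3 → ℝ,
      ContDiffOn ℝ ∞ f (ball z r) ∧ ∀ w ∈ ball z r, hessG G f w = 0 ∧ gamG G f f w = 1 := by
  obtain ⟨v, v1, v2⟩ := h1 z hz
  have hm := met_model.2 hG
  have sP : ∀ w ∈ V, ContDiffAt ℝ ∞ (Pm G) w := fun w hw => by
    simpa using (ps_Pm (hm.fam univ) (mem_univ 0) (a := w) (by simpa using hw)).contDiffAt trivial
  have sS : ∀ w ∈ V, ContDiffAt ℝ ∞ (Sc G) w := fun w hw => (hm.contMDiffAt_Sc hw).contDiffAt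
  obtain ⟨r, hr, hb⟩ := Metric.eventually_nhds_iff_ball.1 ((hG.isOpen.eventually_mem hz).and
    ((((sP z hz).clm_apply (contDiffAt_const (c := v))).clm_apply
      (contDiffAt_const (c := v))).continuousAt.eventually (lt_mem_nhds (a := 0)
      (by simpa [v2, v1] using h0 z hz))))
  have hV : ball z r ⊆ V := fun w hw => (hb w hw).1
  have n0 : ∀ w ∈ ball z r, 0 < Sc G w / 2 * Pm G w v v := fun w hw =>
    mul_pos (half_pos (h0 w (hV hw))) (hb w hw).2
  obtain ⟨σ, hσ⟩ : ∃ σ : E3 → E3 →L[ℝ] ℝ, σ = fun w => (√(Sc G w / 2 * Pm G w v v))⁻¹ • Pm G w v :=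
    ⟨_, rfl⟩
  have sσ : ∀ w ∈ ball z r, ContDiffAt ℝ ∞ σ w := fun w hw => hσ ▸
    (((((sS w (hV hw)).div_const 2).mul (((sP w (hV hw)).clm_apply contDiffAt_const).clm_apply
      contDiffAt_const)).sqrt (n0 w hw).ne').inv (Real.sqrt_pos.2 (n0 w hw)).ne').smul
      ((sP w (hV hw)).clm_apply contDiffAt_const)
  have eσ : ∀ w ∈ ball z r, ∀ a b, Pm G w a b = Sc G w / 2 * (σ w a * σ w b) := fun w hw a b => by
    obtain ⟨u, -, u2⟩ := h1 w (hV hw)
    have k1 := Real.mul_self_sqrt (n0 w hw).le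
    have k2 := (Real.sqrt_pos.2 (n0 w hw)).ne'
    simp only [hσ, smul_apply, smul_eq_mul]
    generalize √(Sc G w / 2 * Pm G w v v) = n at k1 k2
    field_simp
    simp only [u2] at k1 ⊢
    linear_combination (Sc G w * (G w u a * G w u b)) * k1
  have hB : IsMetricOn G (ball z r) := met_model.1 (hm.mono isOpen_ball hV)
  have sT : ContDiffOn ℝ ∞ (fun b : ℝ × E3 => σ b.2) (loc0 hB).W := fun b hb =>
    ((sσ _ hb.2).comp b contDiffAt_snd).contDiffWithinAt
  have e1 : ∀ q : (loc0 hB).O, ∑ a, σ (x q) (e q a) ^ 2 = 1 := fun q => by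
    have k1 := ev_S' q
    simp only [Fr.S, map_add, ev_Pm, loc_g, eσ _ (x_mem q)] at k1
    refine mul_left_cancel₀ (half_pos (h0 _ (hV (x_mem q)))).ne' ?_
    rw [Fin.sum_univ_three]
    linear_combination k1
  have h5 := ((par_iff (L := loc0 hB)).2 fun _ _ w hw => h2 w (hV hw)).unit
    (β := (loc0 hB).l1 _ sT) (fun a b => Sm.ext fun q => by
      simpa only [map_mul, ev_Pm, ev_S', ev_l1, loc_g] using eσ _ (x_mem q) _ _)
    (Sm.ext fun q => by simpa only [map_sum, map_pow, ev_l1, map_one] using e1 q)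
  have e2 : ∀ w ∈ ball z r, ∀ a b, fderiv ℝ σ w a b = σ w (chris G w a b) := fun w hw a b => by
    obtain ⟨q, rfl⟩ : ∃ q : (loc0 hB).O, x q = w := ⟨sec (b := (0, w)) ⟨trivial, hw⟩, rfl⟩
    have k1 := (on_g q).bil (fderiv ℝ σ (x q) -
      (ContinuousLinearMap.compL ℝ E3 E3 ℝ (σ (x q))).comp (chrisB G (x q))) a b
    rw [Finset.sum_eq_zero fun c _ => Finset.sum_eq_zero fun d _ => ?_] at k1
    · simpa [chrisB_apply, sub_eq_zero] using k1
    have h6 := congrArg (ev q) (h5 c d)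
    rw [map_mul, map_pow, ev_S', ev_D_l1, map_zero] at h6
    exact mul_eq_zero_of_left ((mul_eq_zero.1 h6).resolve_left
      (pow_ne_zero _ (half_pos (h0 _ (hV (x_mem q)))).ne')) _
  obtain ⟨f, hf⟩ := (convex_ball z r).exists_forall_hasFDerivAt_of_fderiv_symmetric isOpen_ball
    (fun w hw => ((sσ w hw).differentiableAt (by simp)).differentiableWithinAt)
    fun w hw a b => by rw [e2 w hw, e2 w hw, hB.chris_symm hw]
  have e3 : ∀ w ∈ ball z r, fderiv ℝ f =ᶠ[𝓝 w] σ := fun w hw =>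
    eventually_of_mem (isOpen_ball.mem_nhds hw) fun u hu => (hf u hu).fderiv
  refine ⟨r, hr, hV, f, (contDiffOn_infty_iff_fderiv_of_isOpen isOpen_ball).2
    ⟨fun w hw => (hf w hw).differentiableAt.differentiableWithinAt, fun w hw =>
      ((sσ w hw).congr_of_eventuallyEq (e3 w hw)).contDiffWithinAt⟩, fun w hw => ⟨?_, ?_⟩⟩
  · ext a b
    simp [hessG_apply, (e3 w hw).fderiv_eq, (e3 w hw).self_of_nhds, e2 w hw]
  · obtain ⟨q, rfl⟩ : ∃ q : (loc0 hB).O, x q = w := ⟨sec (b := (0, w)) ⟨trivial, hw⟩, rfl⟩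
    rw [gamG, gradG, (e3 _ hw).self_of_nhds, ← e1 q]
    simpa only [pow_two, loc_g] using (on_g q).inv (pos_g q) _ _

end Static

end Vale.Agent.P216MP
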