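import Vale.Agent.P216MP.First
import Mathlib.Analysis.InnerProductSpace.Calculus
import Mathlib.Analysis.SpecialFunctions.ExpDeriv
import Mathlib.Topology.Algebra.Module.FiniteDimension

/-! # The strong maximum principle for parabolic operators in a chart -/

open Set Filter Topology Metric
open scoped ContDiff RealInnerProductSpace

namespace Vale.Agent.P216MP

set_option maxSynthPendingDepth 3

variable {E : Type*} [NormedAddCommGroup E] [InnerProductSpace ℝ E]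

/-- the inner product as a bilinear map -/
noncomputable def ip : E →L[ℝ] E →L[ℝ] ℝ := innerSL ℝ

@[simp] lemma ip_apply (x y : E) : ip x y = ⟪x, y⟫ := rfl

/-- `(∂ₜ - L) u ≥ c` at `(t, y)`, tested from below with smooth functions, where
`L f = A (D² f) + b (D f)` -/
def Visc (A : (E →L[ℝ] E →L[ℝ] ℝ) →L[ℝ] ℝ) (b : (E →L[ℝ] ℝ) →L[ℝ] ℝ) (u : ℝ → E → ℝ) (t : ℝ)
    (y : E) (c : ℝ) : Prop :=
  ∀ (φ : ℝ → ℝ) (d : ℝ) (f : E → ℝ), HasDerivAt φ d t → ContDiff ℝ ∞ f →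
    (∀ᶠ s in 𝓝[<] t, u t y - φ t ≤ u s y - φ s) → (∀ᶠ z in 𝓝 y, u t y - f y ≤ u t z - f z) →
    c ≤ d - A (fderiv ℝ (fderiv ℝ f) y) - b (fderiv ℝ f y)

lemma hasFDerivAt_bump (k r : ℝ) (c y : E) :
    HasFDerivAt (fun z => k * (r - ‖z - c‖ ^ 2) ^ 2)
      ((-4 * k * (r - ‖y - c‖ ^ 2)) • ip (y - c)) y := by
  have h1 := ((hasFDerivAt_id y).sub_const c).norm_sq
  have h2 := ((h1.const_sub r).pow 2).const_mul k
  refine h2.congr_fderiv ?_
  ext v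
  simp
  ring

lemma fderiv2_bump (k r : ℝ) (c y : E) :
    fderiv ℝ (fderiv ℝ fun z => k * (r - ‖z - c‖ ^ 2) ^ 2) y =
      (8 * k) • (ip (y - c)).smulRight (ip (y - c)) -
        (4 * k * (r - ‖y - c‖ ^ 2)) • (ip : E →L[ℝ] E →L[ℝ] ℝ) := by
  rw [show (fderiv ℝ fun z => k * (r - ‖z - c‖ ^ 2) ^ 2) = _ from
    funext fun y => (hasFDerivAt_bump k r c y).fderiv]
  have h0 := (hasFDerivAt_id (𝕜 := ℝ) y).sub_const c
  have h1 := (h0.norm_sq.const_sub r).const_mul (-4 * k)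
  have h2 := (ip : E →L[ℝ] E →L[ℝ] ℝ).hasFDerivAt.comp y h0
  refine (h1.smul h2).fderiv.trans ?_
  ext v w
  simp
  ring

variable [FiniteDimensional ℝ E]

/-- **Positivity propagates along segments.** -/
theorem smp_segment {A : ℝ × E → (E →L[ℝ] E →L[ℝ] ℝ) →L[ℝ] ℝ} {b : ℝ × E → (E →L[ℝ] ℝ) →L[ℝ] ℝ}
    {u : ℝ → E → ℝ} {t1 t0 r C : ℝ} {x1 v : E} (ht : t1 < t0) (hr : 0 < r) (hC : 0 ≤ C)
    {T : Set (ℝ × E)} (hT : T = {q | q.1 ∈ Icc t1 t0 ∧ ‖q.2 - (x1 + (q.1 - t1) • v)‖ ≤ r})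
    (hA : ContinuousOn A T) (hb : ContinuousOn b T)
    (hpos : ∀ q ∈ T, ∀ ξ : E →L[ℝ] ℝ, ξ ≠ 0 → 0 < A q (ξ.smulRight ξ))
    (hu : ContinuousOn (fun q : ℝ × E => u q.1 q.2) T) (h0 : ∀ q ∈ T, 0 ≤ u q.1 q.2)
    (hv : ∀ q ∈ T, t1 < q.1 → Visc (A q) (b q) u q.1 q.2 (-C * u q.1 q.2))
    (h1 : ∀ y, ‖y - x1‖ ≤ r → 0 < u t1 y) : 0 < u t0 (x1 + (t0 - t1) • v) := by
  have := FiniteDimensional.proper_real E
  obtain ⟨z, hz⟩ : ∃ z : ℝ × E → E, z = fun q => q.2 - (x1 + (q.1 - t1) • v) := ⟨_, rfl⟩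
  have cz : Continuous z := by rw [hz]; fun_prop
  have mT : ∀ q, q ∈ T ↔ q.1 ∈ Icc t1 t0 ∧ ‖z q‖ ≤ r := fun q => by rw [hT, hz]; rfl
  have kT : IsCompact T := by
    have e : T = (fun q : ℝ × E => (q.1, q.2 + (x1 + (q.1 - t1) • v))) ''
        (Icc t1 t0 ×ˢ closedBall 0 r) := by
      ext q
      rw [hT]
      constructor
      · exact fun h => ⟨(q.1, q.2 - (x1 + (q.1 - t1) • v)), ⟨h.1, mem_closedBall_zero_iff.2 h.2⟩,
          by simp⟩
      · rintro ⟨p, hp, rfl⟩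
        exact ⟨hp.1, by simpa using hp.2⟩
    rw [e]
    exact (isCompact_Icc.prod (isCompact_closedBall _ _)).image (by fun_prop)
  obtain ⟨ρ, hρ⟩ : ∃ ρ : ℝ × E → ℝ, ρ = fun q => r ^ 2 - ‖z q‖ ^ 2 := ⟨_, rfl⟩
  have cρ : Continuous ρ := by rw [hρ]; fun_prop
  obtain ⟨ξ, hξ⟩ : ∃ ξ : ℝ × E → E →L[ℝ] ℝ, ξ = fun q => ip (z q) := ⟨_, rfl⟩
  have cξ : Continuous ξ := by rw [hξ]; fun_prop
  have cξ2 : Continuous fun q => (ξ q).smulRight (ξ q) :=
    ((ContinuousLinearMap.smulRightL ℝ E (E →L[ℝ] ℝ)).continuous₂.comp (cξ.prodMk cξ))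
  obtain ⟨K, -, hK⟩ := exists_lt_mul kT (G := fun q => ρ q ^ 2)
    (F := fun q => 4 * ρ q * ξ q v - (8 * A q ((ξ q).smulRight (ξ q)) -
      4 * ρ q * A q (ip : E →L[ℝ] E →L[ℝ] ℝ)) + 4 * ρ q * b q (ξ q) + C * ρ q ^ 2)
    (by
      have a1 := hA.clm_apply cξ2.continuousOn
      have a2 := hA.clm_apply (continuousOn_const (c := (ip : E →L[ℝ] E →L[ℝ] ℝ)))
      have a3 := hb.clm_apply cξ.continuousOn
      have a4 : ContinuousOn (fun q => 4 * ρ q) T := (continuous_const.mul cρ).continuousOn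
      exact (((a4.mul (cξ.clm_apply continuous_const).continuousOn).sub
        ((continuousOn_const.mul a1).sub (a4.mul a2))).add (a4.mul a3)).add
        (continuous_const.mul (cρ.pow 2)).continuousOn)
    (cρ.pow 2).continuousOn (fun q _ => sq_nonneg _) fun q hq h => by
      have a1 : ρ q = 0 := pow_eq_zero_iff two_ne_zero |>.1 h
      have a2 : ξ q ≠ 0 := fun a3 => by
        have a4 : ξ q (z q) = 0 := by rw [a3]; rfl
        rw [hξ] at a4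
        rw [hρ] at a1
        simp only [ip_apply, real_inner_self_eq_norm_sq] at a4 a1
        nlinarith
      have := hpos q hq _ a2
      simp only [a1]
      linarith
  obtain ⟨m, hm, hm2⟩ : ∃ m, 0 < m ∧ ∀ y, ‖y - x1‖ ≤ r → m ≤ u t1 y := by
    have a1 : ContinuousOn (fun y => u t1 y) (closedBall x1 r) :=
      hu.comp (f := fun y => (t1, y)) (by fun_prop) fun y hy => by
        rw [hT]; exact ⟨⟨le_rfl, ht.le⟩, by simpa [dist_eq_norm] using hy⟩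
    obtain ⟨y0, a2, a3⟩ := (isCompact_closedBall x1 r).exists_isMinOn
      ⟨x1, mem_closedBall_self hr.le⟩ a1
    exact ⟨u t1 y0, h1 y0 (by simpa [dist_eq_norm] using a2),
      fun y hy => a3 (by simpa [dist_eq_norm] using hy)⟩
  obtain ⟨k, hk⟩ : ∃ k : ℝ → ℝ, k = fun t => m / r ^ 4 * Real.exp (-K * (t - t1)) := ⟨_, rfl⟩
  have k0 : ∀ t, 0 < k t := fun t => by rw [hk]; positivity
  have dk : ∀ t, HasDerivAt k (-K * k t) t := fun t => by
    rw [hk]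
    refine ((((hasDerivAt_id t).sub_const t1).const_mul (-K)).exp.const_mul _).congr_deriv ?_
    simp only [id]
    ring
  have ck : Continuous k := continuous_iff_continuousAt.2 fun t => (dk t).continuousAt
  have key : ∀ δ > 0, ∀ q ∈ T, 0 < u q.1 q.2 - k q.1 * ρ q ^ 2 + δ := by
    intro δ hδ
    by_contra hn
    push Not at hn
    obtain ⟨p, hp, a1, -, a2⟩ := exists_first kT (τ := fun q => q.1) continuousOn_fst
      ((hu.sub ((ck.comp continuous_fst).mul (cρ.pow 2)).continuousOn).add continuousOn_const) hn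
    simp only [Function.comp, Pi.mul_apply, Pi.pow_apply, Pi.add_apply, Pi.sub_apply] at a1 a2
    obtain ⟨⟨p1, p2⟩, p3⟩ := (mT p).1 hp
    have b0 := h0 p hp
    have b1 : ‖z p‖ < r := p3.lt_of_ne fun h => by
      have : ρ p = 0 := by rw [hρ]; simp [h]
      rw [this] at a1
      nlinarith
    have b2 : t1 < p.1 := p1.lt_of_ne fun h => by
      have c1 : z p = p.2 - x1 := by rw [hz]; simp [← h]
      have c2 := hm2 p.2 (c1 ▸ p3)
      have c3 : k p.1 = m / r ^ 4 := by rw [hk]; simp [← h]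
      have c4 : ρ p ^ 2 ≤ r ^ 4 := by
        have c5 := pow_le_pow_left₀ (norm_nonneg _) p3 2
        rw [hρ]
        nlinarith [sq_nonneg ‖z p‖]
      have c6 : m / r ^ 4 * ρ p ^ 2 ≤ m := by
        rw [div_mul_eq_mul_div, div_le_iff₀ (by positivity)]
        gcongr
      rw [c3, ← h] at a1
      linarith
    have b3 : ∀ᶠ q in 𝓝 p, t1 < q.1 ∧ ‖z q‖ < r :=
      (continuousAt_fst.eventually (lt_mem_nhds b2)).and
        (cz.norm.continuousAt.eventually (gt_mem_nhds b1))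
    have b4 : ∀ᶠ q in 𝓝 p, q.1 ≤ p.1 →
        u p.1 p.2 - k p.1 * ρ p ^ 2 ≤ u q.1 q.2 - k q.1 * ρ q ^ 2 :=
      b3.mono fun q hq hle => by
        linarith [a2 q ((mT q).2 ⟨⟨hq.1.le, hle.trans p2⟩, hq.2.le⟩) hle]
    have d1 : HasDerivAt (fun s => z (s, p.2)) (-v) p.1 := by
      rw [hz]
      simpa using ((((hasDerivAt_id p.1).sub_const t1).smul_const v).const_add x1).const_sub p.2
    have d2 : HasDerivAt (fun s => k s * ρ (s, p.2) ^ 2)
        (-K * k p.1 * ρ p ^ 2 + k p.1 * (4 * ρ p * ξ p v)) p.1 := by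
      rw [hρ, hξ]
      refine ((dk p.1).mul ((d1.norm_sq.const_sub (r ^ 2)).pow 2)).congr_deriv ?_
      simp only [Prod.mk.eta, Pi.pow_apply, inner_neg_right, ip_apply]
      norm_num
      left
      ring
    have e1 : ∀ y, ρ (p.1, y) = r ^ 2 - ‖y - (x1 + (p.1 - t1) • v)‖ ^ 2 := fun y => by
      rw [hρ, hz]
    have d3 := hv p hp b2 _ _ (fun y => k p.1 * (r ^ 2 - ‖y - (x1 + (p.1 - t1) • v)‖ ^ 2) ^ 2) d2
      (contDiff_const.mul ((contDiff_const.sub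
        ((contDiff_id.sub contDiff_const).norm_sq ℝ)).pow 2))
      (by
        have c1 : Tendsto (fun s => (s, p.2)) (𝓝[<] p.1) (𝓝 p) :=
          ((by fun_prop : Continuous fun s : ℝ => (s, p.2)).tendsto p.1).mono_left
            nhdsWithin_le_nhds
        filter_upwards [c1.eventually b4, self_mem_nhdsWithin] with s hs hlt using hs (le_of_lt hlt))
      (by
        have c1 : Tendsto (fun y => (p.1, y)) (𝓝 p.2) (𝓝 p) :=
          (by fun_prop : Continuous fun y : E => (p.1, y)).tendsto p.2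
        filter_upwards [c1.eventually b4] with y hy
        simpa only [← e1] using hy le_rfl)
    have e2 : ip (p.2 - (x1 + (p.1 - t1) • v)) = ξ p := by rw [hξ, hz]
    rw [fderiv2_bump, (hasFDerivAt_bump _ _ _ _).fderiv, ← e1, e2] at d3
    simp only [map_sub, map_smul, smul_eq_mul, Prod.mk.eta] at d3
    have d4 := mul_lt_mul_of_pos_left (hK p hp) (k0 p.1)
    have d5 : C * u p.1 p.2 ≤ C * (k p.1 * ρ p ^ 2) := mul_le_mul_of_nonneg_left (by linarith) hC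
    nlinarith
  have f1 : (t0, x1 + (t0 - t1) • v) ∈ T := by rw [hT]; exact ⟨⟨ht.le, le_rfl⟩, by simpa using hr.le⟩
  have f2 : 0 < k t0 * ρ (t0, x1 + (t0 - t1) • v) ^ 2 := by
    have : ρ (t0, x1 + (t0 - t1) • v) = r ^ 2 := by rw [hρ, hz]; simp
    rw [this]
    have := k0 t0
    positivity
  have f3 := key _ (half_pos f2) _ f1
  simp only at f3
  linarith

/-- **Strong maximum principle.** If a nonnegative supersolution vanishes at `(t0, x0)`, then it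
vanishes on the cylinder `[a, t0] × ball x0 r`. -/
theorem smp_ball {A : ℝ × E → (E →L[ℝ] E →L[ℝ] ℝ) →L[ℝ] ℝ} {b : ℝ × E → (E →L[ℝ] ℝ) →L[ℝ] ℝ}
    {u : ℝ → E → ℝ} {a t0 r C : ℝ} {x0 : E} (hC : 0 ≤ C)
    (hA : ContinuousOn A (Ioc a t0 ×ˢ ball x0 r)) (hb : ContinuousOn b (Ioc a t0 ×ˢ ball x0 r))
    (hpos : ∀ q ∈ Ioc a t0 ×ˢ ball x0 r, ∀ ξ : E →L[ℝ] ℝ, ξ ≠ 0 → 0 < A q (ξ.smulRight ξ))
    (hu : ContinuousOn (fun q : ℝ × E => u q.1 q.2) (Ioc a t0 ×ˢ ball x0 r))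
    (h0 : ∀ q ∈ Ioc a t0 ×ˢ ball x0 r, 0 ≤ u q.1 q.2)
    (hv : ∀ q ∈ Ioc a t0 ×ˢ ball x0 r, Visc (A q) (b q) u q.1 q.2 (-C * u q.1 q.2))
    (h : u t0 x0 = 0) : ∀ q ∈ Ioo a t0 ×ˢ ball x0 r, u q.1 q.2 = 0 := by
  rintro ⟨t1, x1⟩ ⟨⟨h1, h2⟩, h3⟩
  have h4 : (t1, x1) ∈ Ioc a t0 ×ˢ ball x0 r := ⟨⟨h1, h2.le⟩, h3⟩
  refine ((h0 _ h4).eq_or_lt.resolve_right fun h5 => ?_).symm
  rw [mem_ball, dist_eq_norm] at h3
  have h6 : ContinuousAt (fun y => u t1 y) x1 :=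
    (hu.comp (f := fun y => (t1, y)) (s := ball x0 r) (by fun_prop)
      fun y hy => ⟨⟨h1, h2.le⟩, hy⟩).continuousAt (isOpen_ball.mem_nhds h4.2)
  obtain ⟨ε, hε, h7⟩ := Metric.eventually_nhds_iff.1 (h6.eventually (lt_mem_nhds h5))
  have h8 : 0 < t0 - t1 := sub_pos.2 h2
  obtain ⟨s, hs0, hs1, hs2⟩ : ∃ s, 0 < s ∧ s < ε ∧ s < r - ‖x1 - x0‖ :=
    ⟨min ε (r - ‖x1 - x0‖) / 2, by have := lt_min hε (sub_pos.2 h3); linarith,
      by have := min_le_left ε (r - ‖x1 - x0‖); linarith,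
      by have := min_le_right ε (r - ‖x1 - x0‖); have := sub_pos.2 h3; linarith⟩
  have sub : {q : ℝ × E | q.1 ∈ Icc t1 t0 ∧
      ‖q.2 - (x1 + (q.1 - t1) • (t0 - t1)⁻¹ • (x0 - x1))‖ ≤ s} ⊆ Ioc a t0 ×ˢ ball x0 r := by
    rintro q ⟨⟨a1, a2⟩, a3⟩
    refine ⟨⟨h1.trans_le a1, a2⟩, ?_⟩
    rw [mem_ball, dist_eq_norm]
    have a4 : q.2 - x0 = (q.2 - (x1 + (q.1 - t1) • (t0 - t1)⁻¹ • (x0 - x1))) +
        (1 - (q.1 - t1) * (t0 - t1)⁻¹) • (x1 - x0) := by module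
    have a5 : (q.1 - t1) * (t0 - t1)⁻¹ ≤ 1 := by
      rw [← div_eq_mul_inv, div_le_one h8]; linarith
    have a6 : 0 ≤ (q.1 - t1) * (t0 - t1)⁻¹ := mul_nonneg (sub_nonneg.2 a1) (inv_nonneg.2 h8.le)
    rw [a4]
    refine (norm_add_le _ _).trans_lt ?_
    rw [norm_smul, Real.norm_of_nonneg (sub_nonneg.2 a5)]
    nlinarith [norm_nonneg (x1 - x0)]
  have h9 := smp_segment (x1 := x1) (v := (t0 - t1)⁻¹ • (x0 - x1)) h2 hs0 hC rfl (hA.mono sub)
    (hb.mono sub) (fun q hq => hpos q (sub hq)) (hu.mono sub) (fun q hq => h0 q (sub hq))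
    (fun q hq _ => hv q (sub hq)) fun y hy => h7 (by rw [dist_eq_norm]; exact hy.trans_lt hs1)
  rw [smul_smul, mul_inv_cancel₀ h8.ne', one_smul, add_sub_cancel, h] at h9
  exact lt_irrefl _ h9

end Vale.Agent.P216MP
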