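import Vale.Agent.P216MP.Vs
import Vale.Agent.P216MP.Smp

/-! # The strong maximum principle on a manifold -/

open Set Filter Topology Metric
open scoped ContDiff Manifold

set_option maxSynthPendingDepth 3
set_option linter.unusedSectionVars false

noncomputable section

namespace Vale.Agent.P216MP

open P216R P219.RG
open P210.R2.H53 (gradG gamG hessG lapG)

section General

variable {E : Type} [NormedAddCommGroup E] [NormedSpace ℝ E] [FiniteDimensional ℝ E]
  {M : Type} [TopologicalSpace M] [ChartedSpace E M] [IsManifold 𝓘(ℝ, E) ∞ M]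
  {g : ℝ → Ten E M} {I : Set ℝ} {U : Set M} {t : ℝ} {a x : M} {z : E}

lemma ps_co (hg : Fam g I U) (ht : t ∈ I) (hz : z ∈ dom E a U) :
    PS (fun s => co (g s) a) I t z :=
  contDiffWithinAt_univ_of (hg.smooth a) (isOpen_dom a hg.isOpen) ht hz

lemma pos_co (hg : Fam g I U) (ht : t ∈ I) (hz : z ∈ dom E a U) : Pos (co (g t) a z) :=
  ((hg.met ht).isMetricOn a).pos z hz

/-- continuity on `I × U` may be tested in the charts -/
lemma continuousOn_of_rd {X : Type} [TopologicalSpace X] {u : ℝ → M → X}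
    (h : ∀ t ∈ I, ∀ x ∈ U, ContinuousWithinAt (fun p : ℝ × E => rd E (u p.1) x p.2) (I ×ˢ univ)
      (t, pt E x)) : ContinuousOn (fun q : ℝ × M => u q.1 q.2) (I ×ˢ U) := by
  rintro ⟨t, x⟩ ⟨ht, hx⟩
  have h1 : ContinuousAt (fun q : ℝ × M => (q.1, chartAt E x q.2)) (t, x) :=
    continuousAt_fst.prodMk (ContinuousAt.comp (f := Prod.snd) (x := (t, x))
      ((chartAt E x).continuousAt (mem_chart_source E x)) continuousAt_snd)
  have h2 := ContinuousWithinAt.comp (f := fun q : ℝ × M => (q.1, chartAt E x q.2)) (x := (t, x))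
    (s := I ×ˢ U) (h t ht x hx) h1.continuousWithinAt fun q hq => ⟨hq.1, mem_univ _⟩
  refine h2.congr_of_eventuallyEq_of_mem ?_ ⟨ht, hx⟩
  filter_upwards [mem_nhdsWithin_of_mem_nhds ((continuous_snd.tendsto (t, x)).eventually
    ((chartAt E x).open_source.mem_nhds (mem_chart_source E x)))] with q hq
  simp [rd, (chartAt E x).left_inv hq]

lemma continuousOn_rd {X : Type} [TopologicalSpace X] {u : ℝ → M → X}
    (h : ContinuousOn (fun q : ℝ × M => u q.1 q.2) (I ×ˢ U)) (a : M) :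
    ContinuousOn (fun p : ℝ × E => rd E (u p.1) a p.2) (I ×ˢ dom E a U) :=
  h.comp (f := fun p : ℝ × E => (p.1, (chartAt E a).symm p.2))
    (continuousOn_fst.prodMk ((chartAt E a).continuousOn_symm.comp continuousOn_snd
      fun _ hp => hp.2.1)) fun _ hp => ⟨hp.1, hp.2.2⟩

lemma sa_chart {f : E → ℝ} (ha : x ∈ (chartAt E a).source)
    (hf : ContDiffAt ℝ ∞ f (chartAt E a x)) : SA E (f ∘ chartAt E a) x :=
  sa_of (hf.contMDiffAt.comp x (sm_chart ha))

lemma lap_chart {g : Ten E M} {f : E → ℝ} (hg : Met g U) (hx : x ∈ U)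
    (ha : x ∈ (chartAt E a).source) (hf : ContDiffAt ℝ ∞ f (chartAt E a x)) :
    lap g (f ∘ chartAt E a) x = lapG (co g a) f (chartAt E a x) := by
  rw [(li_chart hg hx ha).lap (hf.of_le (by norm_cast)), lap_model]

end General

variable {E : Type} [NormedAddCommGroup E] [InnerProductSpace ℝ E] [FiniteDimensional ℝ E]
  {M : Type} [TopologicalSpace M] [ChartedSpace E M] [IsManifold 𝓘(ℝ, E) ∞ M]
  {g : ℝ → Ten E M} {U : Set M} {u c : ℝ → M → ℝ} {a t0 : ℝ} {x : M}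

lemma smp_loc (hg : Fam g (Ioc a t0) U)
    (hu : ContinuousOn (fun q : ℝ × M => u q.1 q.2) (Ioc a t0 ×ˢ U))
    (hc : ContinuousOn (fun q : ℝ × M => c q.1 q.2) (Ioc a t0 ×ˢ U))
    (h0 : ∀ t ∈ Ioc a t0, ∀ x ∈ U, 0 ≤ u t x)
    (hv : ∀ t ∈ Ioc a t0, ∀ x ∈ U, Vs (g t) u t x (c t x * u t x)) (hx : x ∈ U) :
    ∀ᶠ y in 𝓝 x, ∀ t' ∈ Ioc a t0, u t' x = 0 → ∀ t ∈ Ioo a t', u t y = 0 := by
  have := FiniteDimensional.proper_real E
  obtain ⟨r, hr, hb⟩ := nhds_basis_closedBall.mem_iff.1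
    ((isOpen_dom (E := E) x hg.isOpen).mem_nhds (pt_mem_dom hx))
  filter_upwards [(chartAt E x).open_source.mem_nhds (mem_chart_source E x),
    ((chartAt E x).continuousAt (mem_chart_source E x)).eventually (ball_mem_nhds _ hr)]
    with y hy1 hy2 t' ht' h t ht
  obtain ⟨a', a1, a2⟩ := exists_between ht.1
  have s1 : Icc a' t' ×ˢ closedBall (pt E x) r ⊆ Ioc a t0 ×ˢ dom E x U :=
    prod_mono (fun s hs => ⟨a1.trans_le hs.1, hs.2.trans ht'.2⟩) hb
  have s2 : Ioc a' t' ×ˢ ball (pt E x) r ⊆ Icc a' t' ×ˢ closedBall (pt E x) r :=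
    prod_mono Ioc_subset_Icc_self ball_subset_closedBall
  have s3 := s2.trans s1
  obtain ⟨C, hC⟩ := (isCompact_Icc.prod (isCompact_closedBall (pt E x) r)).bddBelow_image
    ((continuousOn_rd hc x).mono s1)
  have p1 : ∀ q ∈ Ioc a' t' ×ˢ ball (pt E x) r, PS (fun s => co (g s) x) (Ioc a t0) q.1 q.2 :=
    fun q hq => ps_co hg (s3 hq).1 (s3 hq).2
  have p2 : ∀ q ∈ Ioc a' t' ×ˢ ball (pt E x) r, Pos (co (g q.1) x q.2) :=
    fun q hq => pos_co hg (s3 hq).1 (s3 hq).2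
  have s4 : Ioc a' t' ×ˢ ball (pt E x) r ⊆ Ioc a t0 ×ˢ univ := fun q hq => ⟨(s3 hq).1, trivial⟩
  have cA : ContinuousOn (fun q : ℝ × E => trC (co (g q.1) x q.2)) (Ioc a' t' ×ˢ ball (pt E x) r) :=
    fun q hq => (continuousWithinAt_const.clm_comp
      (((ContinuousLinearMap.compL ℝ E (E →L[ℝ] ℝ) E).continuous.continuousAt
        ).comp_continuousWithinAt ((p1 q hq).inverse (p2 q hq)).continuousWithinAt)).mono s4
  have key := smp_ball (A := fun q => trC (co (g q.1) x q.2))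
    (b := fun q => drC (co (g q.1) x q.2) (chrisB (co (g q.1) x) q.2))
    (u := fun s => rd E (u s) x) (a := a') (t0 := t') (r := r) (C := max (-C) 0) (x0 := pt E x)
    (le_max_right _ _) cA
    (fun q hq => ((cA q hq).clm_comp (ContinuousWithinAt.clm_comp
      (((ContinuousLinearMap.compL ℝ E (E →L[ℝ] E) (E →L[ℝ] ℝ)).flip.continuous.continuousAt
        ).comp_continuousWithinAt
        (((p1 q hq).chrisB (s3 hq).1 (p2 q hq)).continuousWithinAt.mono s4))
      continuousWithinAt_const)).neg)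
    (fun q hq ξ hξ => trB_rk_pos (p2 q hq) hξ) ((continuousOn_rd hu x).mono s3)
    (fun q hq => h0 _ (s3 hq).1 _ (s3 hq).2.2) (fun q hq φ d f b1 b2 b3 b4 => ?_)
    (by rwa [rd_pt]) (t, chartAt E x y) ⟨⟨a2, ht.2⟩, hy2⟩
  · simpa [rd, (chartAt E x).left_inv hy1] using key
  obtain ⟨q1, q2, q3⟩ := s3 hq
  have m1 := (chartAt E x).map_target q2
  have e1 := (chartAt E x).right_inv q2
  have k1 := (hv _ q1 _ q3).deriv b1.hasDerivWithinAt (sa_chart m1 b2.contDiffAt) b3 (by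
    have c1 := ((chartAt E x).continuousAt m1).tendsto
    rw [e1] at c1
    filter_upwards [c1.eventually b4, (chartAt E x).open_source.mem_nhds m1] with w w1 w2
    simpa only [rd, Function.comp, (chartAt E x).left_inv w2, e1] using w1)
  rw [lap_chart (hg.met q1) q3 m1 b2.contDiffAt, e1, lapG_split] at k1
  have k2 : C ≤ c q.1 ((chartAt E x).symm q.2) := hC ⟨q, s2 hq, rfl⟩
  have k3 := mul_le_mul_of_nonneg_right ((neg_le.1 (le_max_left (-C) 0)).trans k2) (h0 _ q1 _ q3)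
  simp only [rd, Function.comp]
  linarith

/-- **The strong maximum principle.** -/
theorem smp (hg : Fam g (Ioc a t0) U) (hU : IsPreconnected U)
    (hu : ContinuousOn (fun q : ℝ × M => u q.1 q.2) (Ioc a t0 ×ˢ U))
    (hc : ContinuousOn (fun q : ℝ × M => c q.1 q.2) (Ioc a t0 ×ˢ U))
    (h0 : ∀ t ∈ Ioc a t0, ∀ x ∈ U, 0 ≤ u t x)
    (hv : ∀ t ∈ Ioc a t0, ∀ x ∈ U, Vs (g t) u t x (c t x * u t x)) (hx : x ∈ U)
    (h : u t0 x = 0) : ∀ t ∈ Ioc a t0, ∀ y ∈ U, u t y = 0 := by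
  intro t ht
  have h1 : a < t0 := ht.1.trans_le ht.2
  have key : U ⊆ interior {y | ∀ t ∈ Ioo a t0, u t y = 0} := by
    refine hU.subset_of_closure_inter_subset isOpen_interior ⟨x, hx, mem_interior_iff_mem_nhds.2
      ((smp_loc hg hu hc h0 hv hx).mono fun y hy => hy t0 ⟨h1, le_rfl⟩ h)⟩ ?_
    rintro y ⟨y1, y2⟩
    have y3 : ∀ t ∈ Ioo a t0, u t y = 0 := fun t ht => by
      have c1 : ContinuousAt (u t) y := (hu.comp (f := fun z => (t, z)) (s := U) (by fun_prop)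
        fun z hz => ⟨⟨ht.1, ht.2.le⟩, hz⟩).continuousAt (hg.isOpen.mem_nhds y2)
      simpa using c1.continuousWithinAt.mem_closure (t := {0}) y1
        fun z hz => interior_subset hz t ht
    refine mem_interior_iff_mem_nhds.2 ((smp_loc hg hu hc h0 hv y2).mono fun z hz t ht => ?_)
    obtain ⟨t', b1, b2⟩ := exists_between ht.2
    exact hz t' ⟨ht.1.trans b1, b2.le⟩ (y3 t' ⟨ht.1.trans b1, b2⟩) t ⟨ht.1, b1⟩
  intro y hy
  have c1 : ContinuousWithinAt (fun s => u s y) (Ioo a t0) t :=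
    ((hu.comp (f := fun s => (s, y)) (s := Ioc a t0) (by fun_prop) fun s hs => ⟨hs, hy⟩) t ht).mono
      Ioo_subset_Ioc_self
  have := c1.mem_closure (t := {0}) (by rw [closure_Ioo h1.ne]; exact Ioc_subset_Icc_self ht)
    fun s hs => interior_subset (key hy) s hs
  simpa using this

/-- the strong maximum principle without zero order term -/
theorem smp0 (hg : Fam g (Ioc a t0) U) (hU : IsPreconnected U)
    (hu : ContinuousOn (fun q : ℝ × M => u q.1 q.2) (Ioc a t0 ×ˢ U))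
    (h0 : ∀ t ∈ Ioc a t0, ∀ x ∈ U, 0 ≤ u t x) (hv : ∀ t ∈ Ioc a t0, ∀ x ∈ U, Vs (g t) u t x 0)
    (hx : x ∈ U) (h : u t0 x = 0) : ∀ t ∈ Ioc a t0, ∀ y ∈ U, u t y = 0 :=
  smp (c := fun _ _ => 0) hg hU hu continuousOn_const h0 (by simpa using hv) hx h

end Vale.Agent.P216MP
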