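import Vale.Agent.P216MP.Nu
import Vale.Agent.P216D.ModM

/-! # Evolution inequalities for the extremal curvatures; the Hamilton-Ivey estimate -/

open Set Filter Topology
open scoped ContDiff Manifold

set_option maxSynthPendingDepth 3
set_option linter.unusedSectionVars false

noncomputable section

namespace Vale.Agent.P216MP

open P216R P216BF P216D P216D.Loc
open P210.R2.H53 (gradG gamG hessG lapG)

section Loc

variable {L : Loc} {p : L.O} {F : L.A}

/-- the first order test in time, along frames over the same point -/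
lemma min_time' (hI : L.I ∈ 𝓝[<] t p)
    (h : ∀ᶠ q : L.O in 𝓝 p, x q = x p → t q < t p → ev p F ≤ ev q F) : ev p (L.fl.Dt F) ≤ 0 := by
  have hS : ∀ᶠ r in 𝓝[<] (0 : ℝ), (p : FF) + r • L.XT p ∈ L.R.S := by
    have h1 : Tendsto (fun r : ℝ => t p + r) (𝓝[<] 0) (𝓝[<] t p) :=
      tendsto_nhdsWithin_iff.2 ⟨tendsto_nhdsWithin_of_tendsto_nhds
        (Continuous.tendsto' (by fun_prop) _ _ (by simp)),
        eventually_nhdsWithin_of_forall fun r hr => by simpa using hr⟩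
    filter_upwards [h1.eventually_mem hI] with r hr
    exact ⟨⟨by simpa [XT] using hr, by simpa [XT] using p.2.1.2⟩, trivial⟩
  obtain ⟨u, hu⟩ := Sm.rep F p
  have h1 := line_der (p := (p : FF)) (Z := L.XT p) (s := 0) (J := Iio 0) (S := L.R.S)
    (u := u ∘ L.R.ρ) (by simpa using hu.ret.diff) hS
  rw [ev_Dt hu.ret]
  refine deriv_nonpos_of_left (by simpa using h1.Iic_of_Iio) ?_
  filter_upwards [(line_tend hS).eventually (Ret.ev_ρ (h.and hu.2)), self_mem_nhdsWithin]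
    with r ⟨_, a, b⟩ hr
  have := (a (by simp [x, R, XT]) (by simpa [t, R, XT] using hr)).trans_eq b
  rw [ev_apply, hu.self] at this
  simpa [L.R.fix p p.2] using this

lemma cont_t : Continuous (t : L.O → ℝ) := by unfold t; fun_prop

lemma cont_x : Continuous (x : L.O → E3) := by unfold x; fun_prop

lemma test_frame {w : ℝ → E3 → ℝ} {d : ℝ} {f : E3 → ℝ} (hI : L.I ∈ 𝓝[<] t p)
    (h1 : ∀ q : L.O, w (t q) (x q) ≤ ev q F) (h2 : w (t p) (x p) = ev p F) (hf : ContDiff ℝ ∞ f)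
    (a1 : ∀ᶠ s in 𝓝[<] t p, w (t p) (x p) - d * t p ≤ w s (x p) - d * s)
    (a2 : ∀ᶠ z in 𝓝 (x p), w (t p) (x p) - f (x p) ≤ w (t p) z - f z) :
    ev p (L.fl.H F) ≤ d - lapG (L.g (t p)) f (x p) := by
  have b1 := min_time' (F := F - d • L.time') hI (by
    filter_upwards [(cont_t.tendsto p).eventually (eventually_nhdsWithin_iff.1 a1)] with q b e1 e2
    have := h1 q
    rw [e1] at this
    simp only [map_sub, map_smul, ev_time, smul_eq_mul]
    linarith [b e2])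
  have b2 := min_lap (f := F - L.sc (fun b => f b.2) (hf.comp contDiff_snd).contDiffOn) (p := p) (by
    filter_upwards [(cont_x.tendsto p).eventually a2] with q b (e1 : t q = t p)
    have := h1 q
    rw [e1] at this
    simp only [map_sub, ev_sc]
    linarith)
  rw [map_sub, Derivation.map_smul, Dt_time, map_sub, map_smul, map_one, smul_eq_mul] at b1
  rw [Fr.Lap_sub, map_sub, ev_Lap_sc] at b2
  rw [Fl.H, map_sub, fl_toFr]
  linarith

lemma ev_Pm (q : L.O) (a b : Fin 3) :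
    ev q (L.fr.M a b) = Pm (L.g (t q)) (x q) (e q a) (e q b) := by
  rw [Fr.M_eq, map_sub, map_zsmul, ev_Ric, pm_apply, Sc_model, Ric_model, ← ev_S, on_g q a b]
  simp
  ring

end Loc

variable {M : Type} [TopologicalSpace M] [ChartedSpace E3 M] [IsManifold 𝓘(ℝ, E3) ∞ M]
  {g : ℝ → Ten E3 M} {I : Set ℝ} {U : Set M} {s : ℝ} {y : M} {f : Fin 3 → E3}

lemma onb_on {B : Bil E3} (h : ONB B f) : ON B f := fun a b => by simp [h.on, dl]

lemma on_onb {B : Bil E3} (h : ON B f) : ONB B f := ⟨card3, fun a b => by simp [h a b, dl]⟩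

/-- a function on frames touching from above gives a viscosity inequality -/
lemma vs_frame {h : Fam g I U} {hI : Iv I} {hs : s ∈ I} {hy : y ∈ U} {hf : ON (g s y) f}
    (hp : I ∈ 𝓝[<] s) {u : ℝ → M → ℝ} {F : (cl h hI y).A}
    (h1 : ∀ q, rd E3 (u (t q)) y (x q) ≤ ev q F) (h2 : u s y = ev (fp h hI hs hy hf) F) :
    Vs (g s) u s y (ev (fp h hI hs hy hf) ((cl h hI y).fl.H F)) :=
  vs_of_smooth fun d k a1 a2 a3 => test_frame (p := fp h hI hs hy hf)
    (w := fun s => rd E3 (u s) y) hp h1 (by simpa only [t_fp, x_fp, rd_pt] using h2) a1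
    (by simpa only [t_fp, x_fp, rd_pt] using a2) (by simpa only [t_fp, x_fp, rd_pt] using a3)

lemma fp_Pm {h : Fam g I U} {hI : Iv I} {hs : s ∈ I} {hy : y ∈ U} {hf : ON (g s y) f}
    (a b : Fin 3) : ev (fp h hI hs hy hf) ((cl h hI y).fr.M a b) = Pm (g s) y (f a) (f b) := by
  rw [Fr.M_eq, map_sub, map_zsmul, fp_Ric, pm_apply, ← fp_S (h := h) (hI := hI) (hs := hs)
    (hy := hy) (hf := hf), hf a b]
  simp
  ring

lemma exists_Ioc (hs : s ∈ I) (hp : I ∈ 𝓝[<] s) : ∃ a < s, Ioc a s ⊆ I := by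
  obtain ⟨a, h1, h2⟩ := mem_nhdsLT_iff_exists_Ioo_subset.1 hp
  exact ⟨a, h1, fun r hr => hr.2.eq_or_lt.elim (fun e => e ▸ hs) fun e => h2 ⟨hr.1, e⟩⟩

lemma Ioc_mem {a b : ℝ} (h : s ∈ Ioc a b) : Ioc a b ∈ 𝓝[<] s :=
  mem_of_superset (Ioo_mem_nhdsLT h.1) fun _ hr => ⟨hr.1, hr.2.le.trans h.2⟩

lemma Icc_mem {a b : ℝ} (h : s ∈ Ioc a b) : Icc a b ∈ 𝓝[<] s :=
  mem_of_superset (Ioc_mem h) Ioc_subset_Icc_self

lemma eig2 {a b c n : ℝ} (h1 : n ≤ a) (h2 : n ≤ b) (h3 : c ^ 2 ≤ (a - n) * (b - n)) :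
    ∃ l m, n ≤ l ∧ n ≤ m ∧ l + m = a + b ∧ l * m = a * b - c ^ 2 := by
  have h4 : 0 ≤ ((a - b) / 2) ^ 2 + c ^ 2 := by positivity
  have h5 := Real.sq_sqrt h4
  have h6 : √(((a - b) / 2) ^ 2 + c ^ 2) ≤ (a + b) / 2 - n :=
    Real.sqrt_le_iff.2 ⟨by linarith, by nlinarith⟩
  exact ⟨(a + b) / 2 + √(((a - b) / 2) ^ 2 + c ^ 2), (a + b) / 2 - √(((a - b) / 2) ^ 2 + c ^ 2),
    by linarith [Real.sqrt_nonneg (((a - b) / 2) ^ 2 + c ^ 2)], by linarith, by ring,
    by nlinarith⟩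

/-- the evolution inequality for the scalar curvature and the least sectional curvature -/
theorem vs_cur (h : RF g I U) (hs : s ∈ I) (hp : I ∈ 𝓝[<] s) (hy : y ∈ U) :
    ∃ l m : ℝ, nu (g s) y ≤ l ∧ nu (g s) y ≤ m ∧ Sc (g s) y = 2 * (l + m + nu (g s) y) ∧
      ∀ α β : ℝ, 0 ≤ β → Vs (g s) (fun r z => α * Sc (g r) z + β * nu (g r) z) s y
        (α * (2 * ((l + m) ^ 2 + (l + nu (g s) y) ^ 2 + (m + nu (g s) y) ^ 2)) +
          β * (2 * (nu (g s) y ^ 2 + l * m))) := by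
  obtain ⟨a, a1, a2⟩ := exists_Ioc hs hp
  replace h := h.mono_time a2
  replace hs : s ∈ Ioc a s := ⟨a1, le_rfl⟩
  have hI := iv_Ioc a1
  have hg := h.met hs
  obtain ⟨f, he, h0⟩ := exists_nu hg hy
  have hf := onb_on he
  obtain ⟨B, hB⟩ : ∃ B : Bil E3, B = Pm (g s) y - nu (g s) y • g s y := ⟨_, rfl⟩
  have B0 : ∀ v w, B v w = Pm (g s) y v w - nu (g s) y * g s y v w := fun v w => by simp [hB]
  have B1 : ∀ v w, B v w = B w v := fun v w => by rw [B0, B0, pm_symm hg hy, hg.symm y hy]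
  have B2 : ∀ v, 0 ≤ B v v := fun v => by rw [B0]; linarith [nu_le hg hy v]
  have B3 := null_of_isotropic B1 B2 (v := f 0) (by rw [B0, h0, he.self]; ring)
  have e1 : Pm (g s) y (f 0) (f 1) = 0 := by
    simpa [B3, he.ne (show (0 : Fin 3) ≠ 1 by decide)] using (B0 (f 0) (f 1)).symm
  have e2 : Pm (g s) y (f 0) (f 2) = 0 := by
    simpa [B3, he.ne (show (0 : Fin 3) ≠ 2 by decide)] using (B0 (f 0) (f 2)).symm
  have e3 : B (f 1) (f 2) ^ 2 ≤ B (f 1) (f 1) * B (f 2) (f 2) := by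
    have := discrim_le_zero (a := B (f 1) (f 1)) (b := 2 * B (f 1) (f 2)) (c := B (f 2) (f 2))
      fun r => by
        have := B2 (r • f 1 + f 2)
        simp only [map_add, map_smul, add_apply, smul_apply, smul_eq_mul, B1 (f 2) (f 1)] at this
        linarith
    rw [discrim] at this
    linarith
  have e4 := B2 (f 1)
  have e5 := B2 (f 2)
  simp only [B0, he.self, he.ne (show (1 : Fin 3) ≠ 2 by decide), mul_one, mul_zero, sub_zero]
    at e3 e4 e5
  obtain ⟨l, m, l1, l2, l3, l4⟩ := eig2 (sub_nonneg.1 e4) (sub_nonneg.1 e5) e3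
  have eS := fp_S (h := h.toFam) (hI := hI) (hs := hs) (hy := hy) (hf := hf)
  have eS' := eS
  simp only [Fr.S, map_add, fp_Pm, h0] at eS'
  refine ⟨l, m, l1, l2, by linarith, fun α β hβ => ?_⟩
  have key := vs_frame (h := h.toFam) (hI := hI) (hs := hs) (hy := hy) (hf := hf) (Ioc_mem hs)
    (u := fun r z => α * Sc (g r) z + β * nu (g r) z)
    (F := α • (2 * (cl h.toFam hI y).fr.S) + β • (cl h.toFam hI y).fr.M 0 0) (fun q => by
      have m1 := h.met (t_mem q)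
      have m2 := nu_le (met_model.2 (met (t_mem q))) (x_mem q) (e q 0)
      rw [on_g q 0 0, ← ev_Pm] at m2
      have m3 := rd_nu m1 (x_mem q)
      have m4 := m1.rd_Sc (x_mem q)
      simp only [map_add, map_smul, map_mul, map_ofNat, ev_S, smul_eq_mul]
      simp only [rd, Function.comp] at m3 m4 ⊢
      rw [m3, m4]
      simp only [dl_self, Int.cast_one, mul_one] at m2
      exact add_le_add le_rfl (mul_le_mul_of_nonneg_left m2 hβ))
    (by simp only [map_add, map_smul, map_mul, map_ofNat, eS, fp_Pm, h0, smul_eq_mul])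
  refine key.mono (le_of_eq ?_)
  have k1 := (crf h hI y).H_S
  have k2 := (crf h hI y).H_M 0 0
  simp only [crf_toFl, fl_toFr] at k1 k2
  rw [Fl.H_add, Fl.H_smul, Fl.H_smul, two_mul (cl h.toFam hI y).fr.S, Fl.H_add, k1, k2, Fr.rsq_eq]
  simp only [Fr.Q, Fr.N0, Fr.S, Fin.sum_univ_three, map_add, map_smul, map_mul, map_ofNat, map_sub,
    map_pow, dl_self, one_smul, fp_Pm, h0, e1, e2, pm_symm hg hy (f 1) (f 0),
    pm_symm hg hy (f 2) (f 0), pm_symm hg hy (f 2) (f 1), smul_eq_mul]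
  obtain rfl : l = Pm (g s) y (f 1) (f 1) + Pm (g s) y (f 2) (f 2) - m := by linarith
  linear_combination (2 * β - 4 * α) * l4

theorem vs_sc (h : RF g I U) (hs : s ∈ I) (hp : I ∈ 𝓝[<] s) (hy : y ∈ U) :
    Vs (g s) (fun r => Sc (g r)) s y (2 / 3 * Sc (g s) y ^ 2) := by
  obtain ⟨l, m, -, -, h3, h4⟩ := vs_cur h hs hp hy
  have h5 := h4 1 0 le_rfl
  simp only [one_mul, zero_mul, add_zero] at h5
  refine h5.mono ?_
  rw [h3]
  nlinarith [sq_nonneg (l - m), sq_nonneg (l - nu (g s) y), sq_nonneg (m - nu (g s) y)]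

theorem vs_nu (h : RF g I U) (hs : s ∈ I) (hp : I ∈ 𝓝[<] s) (hy : y ∈ U) :
    Vs (g s) (fun r => nu (g r)) s y ((Sc (g s) y - 2 * nu (g s) y) * nu (g s) y) := by
  obtain ⟨l, m, h1, h2, h3, h4⟩ := vs_cur h hs hp hy
  have h5 := h4 0 1 zero_le_one
  simp only [one_mul, zero_mul, zero_add] at h5
  refine h5.mono ?_
  rw [h3]
  nlinarith [mul_nonneg (sub_nonneg.2 h1) (sub_nonneg.2 h2)]

theorem vs_rho (h : RF g I U) (hs : s ∈ I) (hp : I ∈ 𝓝[<] s) (hy : y ∈ U) :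
    Vs (g s) (fun r => rho (g r)) s y ((Sc (g s) y - rho (g s) y) * rho (g s) y) := by
  obtain ⟨a, a1, a2⟩ := exists_Ioc hs hp
  replace h := h.mono_time a2
  replace hs : s ∈ Ioc a s := ⟨a1, le_rfl⟩
  have hI := iv_Ioc a1
  have hg := h.met hs
  obtain ⟨f, he, h0⟩ := exists_rho hg hy
  have hf := onb_on he
  have B3 := null_of_isotropic (B := Ric (g s) y - rho (g s) y • g s y)
    (fun v w => by simp [ric_symm hg hy v w, hg.symm y hy v w])
    (fun v => by simpa using rho_le hg hy v) (v := f 0) (by simp [h0, he.self])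
  have e1 : Pm (g s) y (f 0) (f 1) = 0 := by
    simpa [pm_apply, he.ne (show (0 : Fin 3) ≠ 1 by decide)] using congrArg (· (f 1)) B3
  have e2 : Pm (g s) y (f 0) (f 2) = 0 := by
    simpa [pm_apply, he.ne (show (0 : Fin 3) ≠ 2 by decide)] using congrArg (· (f 2)) B3
  have eS := fp_S (h := h.toFam) (hI := hI) (hs := hs) (hy := hy) (hf := hf)
  simp only [Fr.S, map_add, fp_Pm] at eS
  have e3 := pm_apply (g := g s) (x := y) (f 0) (f 0)
  rw [he.self, h0] at e3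
  have key := vs_frame (h := h.toFam) (hI := hI) (hs := hs) (hy := hy) (hf := hf) (Ioc_mem hs)
    (u := fun r => rho (g r)) (F := (cl h.toFam hI y).fr.Ric 0 0) (fun q => by
      have m2 := rho_le (met_model.2 (met (t_mem q))) (x_mem q) (e q 0)
      rw [on_g q 0 0, Ric_model, ← ev_Ric] at m2
      rw [rd_rho (h.met (t_mem q)) (x_mem q)]
      simpa using m2) (by rw [fp_Ric, h0])
  refine key.mono ?_
  have k2 := (crf h hI y).H_Ric 0 0
  simp only [crf_toFl, fl_toFr] at k2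
  rw [k2, Fr.rsq_eq]
  simp only [Fr.Q, Fr.N0, Fr.S, Fin.sum_univ_three, map_add, map_mul, map_ofNat, map_sub,
    map_pow, dl_self, one_smul, fp_Pm, e1, e2, pm_symm hg hy (f 1) (f 0),
    pm_symm hg hy (f 2) (f 0), pm_symm hg hy (f 2) (f 1)]
  have e4 : rho (g s) y = Pm (g s) y (f 1) (f 1) + Pm (g s) y (f 2) (f 2) := by linarith
  rw [← eS, e4]
  nlinarith [sq_nonneg (Pm (g s) y (f 1) (f 1) - Pm (g s) y (f 2) (f 2)),
    sq_nonneg (Pm (g s) y (f 1) (f 2))]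

/-! ### closed manifolds -/

lemma TS.shift {Y : Type*} [TopologicalSpace Y] {S : Set Y} {τ u : Y → ℝ} {p : Y} {c : ℝ}
    (H : TS S τ u p c) (k : ℝ) : TS S (fun q => k + τ q) u p c := fun d hd =>
  H d (hd.mono fun q h1 h2 => by linarith [h1 (by linarith)])

variable {a b τ : ℝ}

lemma cur_of (h : RF g (Icc a b) U) {p : ℝ × M} (hp : p ∈ Icc a b ×ˢ U) (ha : a < p.1) (k : ℝ) :
    Cur (Icc a b ×ˢ U) (fun q => k + q.1) (fun q => Sc (g q.1) q.2) (fun q => nu (g q.1) q.2) p := by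
  have h0 := Icc_mem (s := p.1) ⟨ha, hp.1.2⟩
  obtain ⟨l, m, h1, h2, h3, h4⟩ := vs_cur h hp.1 h0 hp.2
  exact ⟨l, m, h1, h2, h3, fun α β hβ => ((h4 α β hβ).ts
    (mem_of_superset h0 fun s hs => mk_mem_prod hs hp.2)
    (mem_of_superset (h.isOpen.mem_nhds hp.2) fun z hz => mk_mem_prod hp.1 hz)).shift k⟩

/-- **The Hamilton-Ivey estimate** on a closed manifold. -/
theorem rf_pinch (h : RF g (Icc a b) U) (hU : IsCompact U) (hτ : 0 < τ)
    (h0 : ∀ x ∈ U, PinchAt (g a) x τ) : ∀ t ∈ Icc a b, ∀ x ∈ U, PinchAt (g t) x (τ + (t - a)) := by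
  intro t ht x hx
  have := pinch (τ := fun q : ℝ × M => τ - a + q.1) (isCompact_Icc.prod hU) (by fun_prop)
    h.toFam.continuousOn_Sc (continuousOn_nu h.toFam) (fun p hp => by linarith [hp.1.1])
    (fun p hp => six_nu_le (h.met hp.1) hp.2) (fun p hp => hp.1.1.eq_or_lt.imp
      (fun e => by simpa only [← e, sub_add_cancel, PinchAt] using h0 _ hp.2) fun e => cur_of h hp e _)
    (t, x) ⟨ht, hx⟩
  rwa [show τ - a + t = τ + (t - a) by ring] at this

/-- the Hamilton-Ivey estimate without assumption on the initial metric -/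
theorem rf_pinch0 (h : RF g (Icc a b) U) (hU : IsCompact U) :
    ∀ t ∈ Ioc a b, ∀ x ∈ U, PinchAt (g t) x (t - a) := by
  intro t ht x hx
  have ha : a ∈ Icc a b := ⟨le_rfl, ht.1.le.trans ht.2⟩
  obtain ⟨K, hK⟩ := hU.bddBelow_image ((continuousOn_nu h.toFam).comp (f := fun z => (a, z))
    (by fun_prop) fun z hz => ⟨ha, hz⟩)
  have h1 : 0 < (2 * |K| + 1)⁻¹ := by positivity
  refine Pinch.mono (rf_pinch h hU h1 (fun z hz => pinchAt_of_secGe (κ := |K|) (h.met ha) hz h1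
    ((secGe_iff (h.met ha) hz).2 ((neg_abs_le K).trans (hK ⟨z, hz, rfl⟩))) ?_) t
    (Ioc_subset_Icc_self ht) x hx) (sub_pos.2 ht.1) (by linarith)
  rw [mul_inv_le_iff₀ (by positivity)]
  linarith

/-- nonnegative sectional curvature is preserved on a closed manifold -/
theorem rf_secGe (h : RF g (Icc a b) U) (hU : IsCompact U) (h0 : ∀ x ∈ U, SecGe (g a) x 0) :
    ∀ t ∈ Icc a b, ∀ x ∈ U, SecGe (g t) x 0 := fun t ht x hx =>
  (secGe_iff (h.met ht) hx).2 (least_nonneg (τ := fun q : ℝ × M => 0 + q.1)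
    (isCompact_Icc.prod hU) (by fun_prop) h.toFam.continuousOn_Sc (continuousOn_nu h.toFam)
    (fun p hp => hp.1.1.eq_or_lt.imp
      (fun e => (secGe_iff (h.met hp.1) hp.2).1 (by rw [← e]; exact h0 _ hp.2)) fun e => cur_of h hp e _) (t, x) ⟨ht, hx⟩)

/-- lower bounds for the scalar curvature on a closed manifold -/
theorem rf_sc_ge (h : RF g (Icc a b) U) (hU : IsCompact U) {φ φ' : ℝ → ℝ}
    (hφ : ∀ t ∈ Icc a b, HasDerivAt φ (φ' t) t) (h1 : ∀ t ∈ Icc a b, φ' t ≤ 2 / 3 * φ t ^ 2)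
    (h0 : ∀ x ∈ U, φ a ≤ Sc (g a) x) : ∀ t ∈ Icc a b, ∀ x ∈ U, φ t ≤ Sc (g t) x :=
  fun t ht x hx => scal_ge (τ := Prod.fst) (φ' := φ') (isCompact_Icc.prod hU) continuousOn_fst
    h.toFam.continuousOn_Sc (fun p hp => (ContinuousAt.comp (f := Prod.fst)
      (hφ _ hp.1).continuousAt continuousAt_fst).continuousWithinAt)
    (fun p hp => hp.1.1.eq_or_lt.imp (fun e => by rw [← e]; exact h0 _ hp.2) fun e =>
      ⟨by simpa only [zero_add] using (cur_of h hp e 0).scal, (hφ _ hp.1).hasDerivWithinAt,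
        h1 _ hp.1⟩) (t, x) ⟨ht, hx⟩

theorem rf_sc_const (h : RF g (Icc a b) U) (hU : IsCompact U) {m : ℝ}
    (h0 : ∀ x ∈ U, m ≤ Sc (g a) x) : ∀ t ∈ Icc a b, ∀ x ∈ U, m ≤ Sc (g t) x :=
  rf_sc_ge h hU (φ := fun _ => m) (φ' := fun _ => 0) (fun t _ => hasDerivAt_const t m)
    (fun _ _ => by positivity) h0

/-- the sharp bound; `c` may have either sign -/
theorem rf_sc_inv (h : RF g (Icc a b) U) (hU : IsCompact U) {c : ℝ}
    (hc : ∀ t ∈ Icc a b, c + 2 * (t - a) ≠ 0) (h0 : ∀ x ∈ U, -3 / c ≤ Sc (g a) x) :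
    ∀ t ∈ Icc a b, ∀ x ∈ U, -3 / (c + 2 * (t - a)) ≤ Sc (g t) x :=
  rf_sc_ge h hU (φ := fun t => -3 / (c + 2 * (t - a))) (φ' := fun t => 6 / (c + 2 * (t - a)) ^ 2)
    (fun t ht => ((hasDerivAt_const t (-3 : ℝ)).div ((((hasDerivAt_id t).sub_const a).const_mul
      2).const_add c) (hc t ht)).congr_deriv (by simp; norm_num))
    (fun t ht => le_of_eq (by field_simp; norm_num)) (by simpa using h0)

end Vale.Agent.P216MP
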